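import Vale.Agent.P011UGA.IF2
import Vale.Agent.P011U.Top

/-!
The groups of small rank of all frames lie in the normal subgroup.
-/

set_option autoImplicit false
set_option linter.all false

namespace Vale.Agent.P011UGA

open Matrix Vale.Agent.P011L Vale.Agent.P011LZ Vale.Agent.P183CH Vale.Agent.P011U

/-- Transport. -/
def CJX2 : Prop := AllO fun k K _ _ _ D T ε π d => (∃ θ, ε θ = -1) → ∀ g t, Fr T ε g t →
  Eqt (fun _ => True) π t ∧ ∃ T' : Tw k (D.grp K), Cj T g T' ∧ Eqv T T' ∧ Opw T' ε π (nd d t)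

variable {k K : Type} [Field k] [Field K] [Algebra k K] {D : Chev}

theorem LJ_mono {R : RS} {G : Type} [Group G] (Γ : RG R K G) {J J' : Set (Fin R.r)} (h : J ⊆ J') :
    LJ Γ J ≤ LJ Γ J' :=
  Subgroup.closure_mono fun _ ⟨γ, h1, h2⟩ => ⟨γ, fun i hi => h1 i fun h3 => hi (h h3), h2⟩

theorem GJ_mono {R : RS} {G : Type} [Group G] (Γ : RG R K G) {J J' : Set (Fin R.r)} (h : J ⊆ J') :
    Γ.GJ J ≤ Γ.GJ J' := sup_le_sup_right (LJ_mono Γ h) _

theorem nm_LJ {R : RS} {G : Type} [Group G] {Γ : RG R K G} (hΓ : Γ.Ok) (J : Set (Fin R.r))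
    {g : G} (hg : g ∈ Γ.GJ J) {x : G} (hx : x ∈ LJ Γ J) : g * x * g⁻¹ ∈ LJ Γ J := by
  have h : Γ.GJ J ≤ Subgroup.normalizer (LJ Γ J : Set G) := by
    refine sup_le Subgroup.le_normalizer ((Subgroup.closure_le _).2 ?_)
    have key : ∀ i t, ∀ x ∈ LJ Γ J, Γ.h i t * x * (Γ.h i t)⁻¹ ∈ LJ Γ J := fun i t x hx => by
      refine (Subgroup.closure_le ((LJ Γ J).comap (MulAut.conj (Γ.h i t)).toMonoidHom)).2 ?_ hx
      rintro _ ⟨γ, h1, h2, u, rfl⟩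
      exact (congrArg (· ∈ LJ Γ J) (hΓ.hx i t γ h2 u)).mpr
        (Subgroup.subset_closure ⟨γ, h1, h2, _, rfl⟩)
    rintro _ ⟨i, t, rfl⟩
    refine Subgroup.mem_normalizer_iff.2 fun x => ⟨key i t x, fun hx => ?_⟩
    have := key i t⁻¹ _ hx
    rwa [map_inv, inv_inv, ← mul_assoc, ← mul_assoc, inv_mul_cancel, one_mul,
      inv_mul_cancel_right] at this
  exact (Subgroup.mem_normalizer_iff.1 (h hg) x).1 hx

section

variable {T T' : Tw k (D.grp K)} {g : D.grp K} {N : Subgroup (D.grp K)}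

theorem Cj.fix (h : Cj T g T') (x : D.grp K) : x ∈ T'.fix ↔ g * x * g⁻¹ ∈ T.fix :=
  forall_congr' fun σ => by
    rw [h σ x]
    constructor
    · intro e
      rw [← e]
      conv_lhs => rw [e]
      group
    · intro e
      rw [e]
      group

/-- the transported normal subgroup -/
def tr (N : Subgroup (D.grp K)) (g : D.grp K) : Subgroup (D.grp K) :=
  N.comap (MulAut.conj g).toMonoidHom

theorem mem_tr {x : D.grp K} : x ∈ tr N g ↔ g * x * g⁻¹ ∈ N := Iff.rfl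

theorem Cj.nm (h : Cj T g T') (hN : Nm T N) : Nm T' (tr N g) :=
  ⟨fun x hx => (h.fix x).2 (hN.1 hx), fun x hx n hn => by
    have := hN.2 _ ((h.fix x).1 hx) _ hn
    rw [mem_tr]
    convert this using 1
    simp only [MulEquiv.toMonoidHom_eq_coe, MonoidHom.coe_coe, MulAut.conj_apply]
    group⟩

theorem Cj.nc (h : Cj T g T') (hN : Nc T N) : Nc T' (tr N g) := by
  obtain ⟨n, hn, x, hx, e⟩ := hN
  refine ⟨g⁻¹ * n * g, ?_, g⁻¹ * x * g, (h.fix _).2 ?_, fun h1 => e ?_⟩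
  · rw [mem_tr]
    convert hn using 1
    group
  · convert hx using 1
    group
  · have := h1.map (MulAut.conj g)
    simpa [mul_assoc] using this

theorem le_of_ps (hN : Nm T N) {H : Subgroup (D.grp K)} (hH : H ≤ T.fix) (hp : PSimple H)
    {a b : D.grp K} (ha : a ∈ N) (ha' : a ∈ H) (hb : b ∈ H) (h : ¬Commute a b) : H ≤ N := by
  have := hp (N.subgroupOf H) ⟨fun n hn x => hN.2 _ (hH x.2) _ hn⟩ fun h1 =>
    h (congrArg Subtype.val (Subgroup.mem_center_iff.1 (h1 (x := ⟨a, ha'⟩) ha) ⟨b, hb⟩)).symm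
  exact Subgroup.subgroupOf_eq_top.1 this

end

theorem exists_nb {R : RS} (hR : R.Ok) (hA : ¬TyA R) (i : Fin R.r) : ∃ j, j ≠ i ∧ R.A j i ≠ 0 := by
  by_contra h
  push Not at h
  have h1 : ∀ j, j = i := fun j => hR.conn (· = i) i j rfl fun a b ha hb => by
    subst ha
    by_contra h2
    exact hb (h b h2)
  haveI : Unique (Fin R.r) := ⟨⟨i⟩, h1⟩
  refine hA ⟨1, Equiv.ofUnique _ _, fun a b => ?_⟩
  rw [h1 a, h1 b, hR.diag, Subsingleton.elim (Equiv.ofUnique _ _ i) (0 : Fin 1)]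
  rfl

section

variable {ε : (K ≃ₐ[k] K) →* ℤˣ} {π : (K ≃ₐ[k] K) →* Equiv.Perm (Fin D.R.r)}

theorem orb_self (i : Fin D.R.r) : i ∈ orb π i := ⟨1, by simp⟩

theorem orb_eq {i j : Fin D.R.r} (h : j ∈ orb π i) : orb π j = orb π i := by
  obtain ⟨σ, rfl⟩ := h
  ext m
  constructor
  · rintro ⟨τ, rfl⟩
    exact ⟨τ * σ, by simp⟩
  · rintro ⟨τ, rfl⟩
    exact ⟨τ * σ⁻¹, by simp⟩

/-- the standing hypotheses -/
structure Hy (ε : (K ≃ₐ[k] K) →* ℤˣ) (π : (K ≃ₐ[k] K) →* Equiv.Perm (Fin D.R.r)) : Prop where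
  gl : Glob k
  sc : SC D
  nA : ¬TyA D.R
  ort : Ort D.R π
  ne : ∃ θ, ε θ = -1
  two : ∀ σ τ, π σ = 1 ∨ π τ = 1 ∨ π σ = π τ

variable [IsSepClosure k K] {T : Tw k (D.grp K)} {d : Fin D.R.r → Kˣ} {N : Subgroup (D.grp K)}

theorem spread (rk : RK2) (ng : NAG) (H : Hy ε π) (ho : Opw T ε π d) (hN : Nm T N) {i : Fin D.R.r}
    (h : ∃ a ∈ N ⊓ FJ T (orb π i), ∃ b ∈ FJ T (orb π i), ¬Commute a b) :
    (∀ i j, i ≠ j → D.R.A i j ≠ 0 → FJ T (orb π i ∪ orb π j) ≤ N) ∧ ∀ i, FJ T (orb π i) ≤ N := by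
  have mo : ∀ {J J' : Set (Fin D.R.r)}, J ⊆ J' → FJ T J ≤ FJ T J' := fun h =>
    inf_le_inf_left _ (LJ_mono _ h)
  let P : Fin D.R.r → Prop := fun i =>
    ∃ a ∈ N ⊓ FJ T (orb π i), ∃ b ∈ FJ T (orb π i), ¬Commute a b
  have h1 : ∀ i j, P j → i ≠ j → D.R.A i j ≠ 0 → FJ T (orb π i ∪ orb π j) ≤ N := by
    rintro i j ⟨a, ha, b, hb, e⟩ hij hA
    exact le_of_ps hN inf_le_left
      (rk k K D H.gl H.sc T ε π d ho H.nA H.ort H.ne H.two i j hij hA) ha.1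
      (mo Set.subset_union_right ha.2) (mo Set.subset_union_right hb) e
  have h2 : ∀ j, P j := fun j => (Chev.R_ok D).conn P i j h fun a b ha hb => by
    rcases eq_or_ne b a with rfl | hne
    · exact ha
    · obtain ⟨x, hx, y, hy, e⟩ := ng k K D H.gl H.sc T ε π d ho H.ort b
      exact ⟨x, ⟨h1 b a ha hne hb (mo Set.subset_union_left hx), hx⟩, y, hy, by
        simpa using e 1 one_pos⟩
  refine ⟨fun i j => h1 i j (h2 j), fun i => ?_⟩
  obtain ⟨j, h3, h4⟩ := exists_nb (Chev.R_ok D) H.nA i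
  exact (mo Set.subset_union_right).trans (h1 j i (h2 i) h3 h4)

variable (T π N) in
/-- the groups of rank one of the frame lie in `N` -/
def G1 (g : D.grp K) (i : Fin D.R.r) : Prop :=
  ∀ x ∈ LJ (GG D K) (orb π i), g * x * g⁻¹ ∈ T.fix → g * x * g⁻¹ ∈ N

variable (T π N) in
/-- the Levi subgroups of rank two of the frame lie in `N` -/
def G2 (g : D.grp K) : Prop :=
  ∀ i j, ∀ x ∈ (GG D K).GJ (orb π i ∪ orb π j), g * x * g⁻¹ ∈ T.fix → g * x * g⁻¹ ∈ N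

theorem G1.step {g g' : D.grp K} {i : Fin D.R.r} (h : G1 π T N g i)
    (e : g⁻¹ * g' ∈ (GG D K).GJ (orb π i)) : G1 π T N g' i := fun x hx h1 => by
  have e1 : g * (g⁻¹ * g' * x * (g⁻¹ * g')⁻¹) * g⁻¹ = g' * x * g'⁻¹ := by group
  rw [← e1] at h1 ⊢
  exact h _ (nm_LJ GG_ok _ e hx) h1

theorem g2_of (rk : RK2) (ng : NAG) (lv : LV2) (H : Hy ε π) (hN : Nm T N) {g : D.grp K}
    {T' : Tw k (D.grp K)} {d' : Fin D.R.r → Kˣ} (hc : Cj T g T') (ho : Opw T' ε π d')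
    {i : Fin D.R.r} (h : ∃ a ∈ tr N g ⊓ FJ T' (orb π i), ∃ b ∈ FJ T' (orb π i), ¬Commute a b) :
    G2 π T N g := by
  haveI := Glob.inf H.gl
  obtain ⟨h1, h2⟩ := spread rk ng H ho (hc.nm hN) h
  intro i j x hx h3
  refine lv k K D H.sc T' ε π d' ho H.ort (tr N g) h2 i j ?_ ⟨(hc.fix x).2 h3, hx⟩
  rintro ⟨i', hi, j', hj, h4⟩
  rw [← orb_eq hi, ← orb_eq hj]
  rcases eq_or_ne i' j' with rfl | hne
  · rw [Set.union_self]
    exact h2 i'
  · exact h1 i' j' hne h4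

theorem G2.g1 {g : D.grp K} (h : G2 π T N g) (i : Fin D.R.r) : G1 π T N g i := fun x hx =>
  h i i x (by rw [Set.union_self]; exact Subgroup.mem_sup_left hx)

theorem g2_of_g1 (rk : RK2) (ng : NAG) (lv : LV2) (cj : CJX2) (H : Hy ε π) (ho : Opw T ε π d)
    (hN : Nm T N) {g : D.grp K} {t : Fin D.R.r → Kˣ} (hg : Fr T ε g t) {i : Fin D.R.r}
    (h : G1 π T N g i) : G2 π T N g := by
  haveI := Glob.inf H.gl
  obtain ⟨-, T', hc, -, ho'⟩ := cj k K D H.sc T ε π d ho H.ort H.ne g t hg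
  obtain ⟨x, hx, y, hy, e⟩ := ng k K D H.gl H.sc T' ε π _ ho' H.ort i
  exact g2_of rk ng lv H hN hc ho'
    ⟨x, ⟨h x hx.2 ((hc.fix x).1 hx.1), hx⟩, y, hy, by simpa using e 1 one_pos⟩

theorem fr_one : Fr T ε 1 1 := ⟨fun _ _ => map_one _, fun _ _ => by simp⟩

theorem g2_all (rk : RK2) (ng : NAG) (lv : LV2) (cj : CJX2) (cn : CONN) (isf : ISOF) (ti : TISO)
    (tx : TORX) (H : Hy ε π) (ho : Opw T ε π d) (hf : ¬NumberField k → ¬T.Ani) (hN : Nm T N)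
    (hc : Nc T N) {g : D.grp K} {t : Fin D.R.r → Kˣ} (hg : Fr T ε g t) : G2 π T N g := by
  haveI := Glob.inf H.gl
  have key : ∀ g t, Fr T ε g t → (G2 π T N 1 ↔ G2 π T N g) := fun g t hg => by
    have h1 := cn k K D H.sc T ε π d ho H.ort H.ne g t hg
    clear hg
    suffices (∃ s, Fr T ε g s) ∧ (G2 π T N 1 ↔ G2 π T N g) from this.2
    induction h1 with
    | refl => exact ⟨⟨1, fr_one⟩, Iff.rfl⟩
    | tail _ h2 ih =>
      obtain ⟨⟨s, hs⟩, i, h3⟩ := h2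
      obtain ⟨⟨s', hs'⟩, ih⟩ := ih
      refine ⟨⟨s, hs⟩, ih.trans ⟨fun h => ?_, fun h => ?_⟩⟩
      · exact g2_of_g1 rk ng lv cj H ho hN hs ((h.g1 i).step h3)
      · exact g2_of_g1 rk ng lv cj H ho hN hs' ((h.g1 i).step (by simpa using inv_mem h3))
  rw [← key g t hg]
  by_cases an : T.Ani
  · obtain ⟨i, h⟩ := tx k K D H.gl H.sc T ε π d ho H.nA H.ort H.ne
      (not_not.1 fun h => hf h an) an N hN hc
    refine g2_of rk ng lv H hN (T' := T) (fun σ x => by simp) ho (i := i) ?_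
    obtain ⟨a, ha, h⟩ := h
    exact ⟨a, ⟨by simpa [mem_tr] using ha.1, ha.2⟩, h⟩
  · obtain ⟨g, t, i, hg, hi⟩ := isf k K D H.sc T ε π d ho H.ort H.ne an
    obtain ⟨-, T', h1, -, ho'⟩ := cj k K D H.sc T ε π d ho H.ort H.ne g t hg
    rw [key g t hg]
    exact g2_of rk ng lv H hN h1 ho'
      ((ti k K D H.sc T' ε π _ ho' H.ort H.ne i hi).2 _ (h1.nm hN) (h1.nc hc))

end

end Vale.Agent.P011UGA
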