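import Vale.Agent.P011UGA.IF3
import Vale.Agent.P011U.Top
import Vale.Agent.P011UD.Aut
import Vale.Agent.P011UC.Tr

/-!
The target from the blocks, with the weaker form of the gallery argument.
-/

set_option autoImplicit false
set_option linter.all false

namespace Vale.Agent.P011UGA

open Matrix Vale.Agent.P011L Vale.Agent.P011LZ Vale.Agent.P183CH Vale.Agent.P011LT Vale.Agent.P011U

theorem ps_of2 (ox : OPX) (et : EQT) (ea : EQA) (dp : DOPP2) : AllG fun k _ _ _ _ D T =>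
    ¬TyA D.R →
    (Ex2 D.R ∨ (∃ n e, Ty D.R (CartanMatrix.D (n + 1)) e ∧ 4 ≤ n ∧ Tit T (e.symm 0)) ∨ Lift T) →
      ¬Tri T → (T.Ani → NumberField k → ¬∃ e, Ty D.R CartanMatrix.E₆ e) → PSimple T.fix := by
  intro k K _ _ _ _ D hk hD T hA h ht h6
  haveI := Glob.inf hk
  obtain ⟨T', ε, π, c, e, ho⟩ := ox k K D hk hD T hA h
  obtain ⟨f⟩ := e.fix
  exact PSimple.congr f (dp k K D hk hD T' hA (fun h => ht (et k K D hD T T' e h))
    (fun an => h6 (ea k K D hD T' T (P011UC.eqv_symm e) an)) ε π c ho)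

theorem top2 (int : INT) (cls : CLS) (ex2 : EX2) (dg2 : DG2) (nta : NTA) (hb : HB) (cq : CQ)
    (og : OPG) (e6i : E6I) (opi : OPI) (dp : DOPP2) (dO : DO) (f1 : F1) (f2 : F2) (ia : IA)
    (t1 : T1I) (isa : ISA) (isd : ISD) (ise : ISE) (ti : TI) (ea : EQA) (et : EQT) (trn : TRN) :
    Q1 := by
  intro k K _ _ _ _ hk D hD m G φ h
  haveI := Glob.inf hk
  have ox := opx hb cq og
  have ps := ps_of2 ox et ea dp
  show MP k G
  by_cases hA : TyA D.R
  · obtain ⟨n, e, he⟩ := hA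
    obtain ⟨ψ, h1, h2, -⟩ := isa D hD n e he K
    have : 0 < n := by
      have := Fintype.card_congr e
      rw [Fintype.card_fin, Fintype.card_fin] at this
      exact this ▸ (Chev.R_ok D).pos
    exact qa (fun k K _ _ _ _ m G an => (int k K m G an).1) ti ia t1 k K hk m G (n + 1) (by omega)
      _ (form_trans h h1 h2)
  obtain ⟨T, ⟨f⟩, a, i⟩ := t1 k K _ _ G _ φ (stab k) h
  by_cases ht : Tri T
  · obtain ⟨e, he⟩ : ∃ e, Ty D.R (CartanMatrix.D 4) e := by
      obtain ⟨σ, g, c, π, h1, h2⟩ := ht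
      exact dg2 D.R (Chev.R_ok D) π h1.1 h2
    by_cases an : T.Ani
    · by_cases nf : NumberField k
      · haveI : CharZero K := charZero_of_injective_algebraMap (algebraMap k K).injective
        haveI : IsAlgClosed K := by
          haveI := IsSepClosure.sep_closed k (K := K)
          exact IsSepClosed.isAlgClosed_of_perfectField K
        obtain ⟨ψ, h1, h2, h3⟩ := isd D hD e he K
        obtain ⟨σ, hσ⟩ := trn k K D hD T ht
        refine (int k K m G (a.2 an)).2.1 _ nf (form_trans h h1 h2) ⟨σ, fun ⟨s, hs, h4⟩ => hσ ?_⟩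
        refine (i _ _).2 ⟨(ψ.symm ⟨s, hs⟩).1, (ψ.symm ⟨s, hs⟩).2, fun g g' e' => ?_⟩
        have h5 := h4 g g' e'
        rw [MulEquiv.trans_apply, MulEquiv.trans_apply] at h5
        have h6 : ψ (φ g') * ⟨s, hs⟩ = ⟨s, hs⟩ * ψ (fm D ((σ * σ : K ≃ₐ[k] K) : K →+* K) (φ g)) :=
          Subtype.ext (Units.ext (h5.trans (congrArg (s.1 * ·)
            (h3 ((σ * σ : K ≃ₐ[k] K) : K →+* K) (φ g)).symm)))
        have h7 := congrArg ψ.symm h6
        rw [map_mul, map_mul, ψ.symm_apply_apply, ψ.symm_apply_apply] at h7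
        exact congrArg (fun x : D.grp K => x.1.1) h7
      · obtain ⟨T', ε, π, c, e', ho⟩ := ox k K D hk hD T hA
          (.inl (ex2 _ (.inr (.inr (.inl ⟨4, e, le_rfl, by decide, he⟩)))))
        exact absurd (ea k K D hD T T' e' an) (opi k K D hk hD T' nf hA ε π c ho)
    · exact t2 k K _ G (PSimple.congr f (f1 k K D hk hD T e he ht an))
  have dev : DEV := fun k K _ _ _ _ D hk hD T n e he hn h2 ht =>
    ps k K D hk hD T (fun hA => (nta _ hA).1 n e hn he)
      (.inl (ex2 _ (.inr (.inr (.inl ⟨n, e, hn, h2, he⟩))))) ht fun _ _ ⟨_, h⟩ =>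
        P011UD.not_x2 (h.ex2.1 (ex2 _ (.inr (.inr (.inl ⟨n, e, hn, h2, he⟩)))))
  by_cases h6 : T.Ani ∧ NumberField k ∧ ∃ e, Ty D.R CartanMatrix.E₆ e
  · obtain ⟨an, nf, e, he⟩ := h6
    haveI : CharZero K := charZero_of_injective_algebraMap (algebraMap k K).injective
    haveI : IsAlgClosed K := by
      haveI := IsSepClosure.sep_closed k (K := K)
      exact IsSepClosed.isAlgClosed_of_perfectField K
    obtain ⟨ψ, h1, h2⟩ := ise D hD e he K
    exact (int k K m G (a.2 an)).2.2 _ nf (form_trans h h1 h2)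
  replace ps := fun h => ps k K D hk hD T hA h ht fun h1 h2 h3 => h6 ⟨h1, h2, h3⟩
  have fin : PSimple T.fix → MP k G := fun h => t2 k K _ G (PSimple.congr f h)
  have x2 : _ → MP k G := fun h => fin (ps (.inl (ex2 _ h)))
  rcases cls D.R (Chev.R_ok D) with h' | h' | h' | ⟨n, e, hn, he⟩ | ⟨e, he⟩ | h' | h' | h' | h'
  · exact absurd h' hA
  · exact x2 (.inl h')
  · exact x2 (.inr (.inl h'))
  · rcases Nat.even_or_odd n with h2 | ⟨j, rfl⟩
    · exact x2 (.inr (.inr (.inl ⟨n, e, hn, h2, he⟩)))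
    · by_cases h3 : Tit T (e.symm 0)
      · exact fin (ps (.inr (.inl ⟨2 * j, e, he, by omega, h3⟩)))
      · exact fin (dO dev k K D hk hD T (2 * j) e he (by omega) (even_two_mul j) h3)
  · by_cases h3 : Lift T
    · exact fin (ps (.inr (.inr h3)))
    by_cases an : T.Ani
    · exact absurd an (e6i k K D hk hD T (fun nf => h6 ⟨an, nf, e, he⟩) ⟨e, he⟩)
    · exact fin (f2 k K D hk hD T e he h3 an)
  · exact x2 (.inr (.inr (.inr (.inl h'))))
  · exact x2 (.inr (.inr (.inr (.inr (.inl h')))))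
  · exact x2 (.inr (.inr (.inr (.inr (.inr (.inl h'))))))
  · exact x2 (.inr (.inr (.inr (.inr (.inr (.inr h'))))))

end Vale.Agent.P011UGA
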