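import Vale.Agent.P011UGA.St
import Vale.Agent.P011UGC5.Opn

/-!
The gallery argument.
-/

set_option autoImplicit false
set_option linter.all false

namespace Vale.Agent.P011UGA

open Matrix Vale.Agent.P011L Vale.Agent.P011LZ Vale.Agent.P183CH Vale.Agent.P011U

/-- The action on the torus. -/
def AHT : Prop := AllO fun _ K _ _ _ D T ε π _ => ∀ σ (s t : Fin D.R.r → Kˣ),
  (∀ m, (t (π σ m) : K) = σ (s m)) → T.a σ (hT D K s) = hT D K t ^ (ε σ : ℤ)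

theorem aht : AHT := fun k K _ _ _ _ _ D _ T ε π d h _ σ s t e => by
  rw [P011UGC5.a_hT h, ← map_zpow]
  congr 1
  funext j
  obtain ⟨m, rfl⟩ := (π σ).surjective j
  rw [Equiv.symm_apply_apply, Pi.pow_apply]
  congr 1
  exact Units.ext (e m).symm

variable {k K : Type} [Field k] [Field K] [Algebra k K] {D : Chev}
  {ε : (K ≃ₐ[k] K) →* ℤˣ} {π : (K ≃ₐ[k] K) →* Equiv.Perm (Fin D.R.r)}
  {V : Type} {φ : V → K →+* ℂ} {κ : V → K ≃ₐ[k] K}

theorem sgd_eq (H : Plc ε V φ κ) (hg : ∀ σ, Dg D.R (π σ)) {d : Fin D.R.r → Kˣ}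
    (hd : d ∈ EQ π fun _ => True) (t : EQ π fun _ => True) {v : V} {j : Fin D.R.r}
    (hj : π (κ v) j = j) :
    sgd (fun v => {j | π (κ v) j = j}) (sgP π H) (fun v j => sgR (φ v (d j)).re) (PP ε π t) v j =
      sgR (φ v (nd d t.1 j)).re := by
  classical
  have kk : κ v * κ v = 1 := AlgEquiv.ext fun x => (φ v).injective (by
    rw [AlgEquiv.mul_apply, H.cj, H.cj, Complex.conj_conj, AlgEquiv.one_apply])
  have hι : ∀ m, π (κ v) (π (κ v) m) = m := fun m => by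
    rw [← Equiv.Perm.mul_apply, ← map_mul, kk, map_one, Equiv.Perm.one_apply]
  obtain ⟨c, hc, e⟩ := prod_pos (π (κ v)) hι (fun m => φ v (t.1 m) ^ (-D.R.A j m))
    (fun m => zpow_ne_zero _ ((map_ne_zero _).2 (t.1 m).ne_zero)) fun m => by
      rw [t.2 _ trivial m, H.cj, map_zpow₀, ← hg (κ v) j m, hj]
  let y : Fin D.R.r → Rl (φ v) := fun m =>
    if h : π (κ v) m = m then ⟨t.1 m, H.rl h t.2⟩ else 1
  let x : Rl (φ v) := ⟨d j, H.rl hj hd⟩ *
    ∏ m ∈ Finset.univ.filter (fun m => π (κ v) m = m), y m ^ (-D.R.A j m)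
  have h1 : φ v (nd d t.1 j) = φ v x.1 * c := by
    rw [← e, nd, ← Finset.prod_filter_mul_prod_filter_not Finset.univ (fun m => π (κ v) m = m)]
    simp only [x, Subgroup.coe_mul, Units.val_mul, map_mul, mul_assoc, Units.coe_prod, map_prod,
      Units.val_zpow_eq_zpow_val, map_zpow₀, SubmonoidClass.coe_finset_prod, SubgroupClass.coe_zpow]
    congr 2
    refine Finset.prod_congr rfl fun m hm => ?_
    simp only [y, dif_pos (Finset.mem_filter.1 hm).2]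
  have h2 : sgR (φ v (nd d t.1 j)).re = sgH (φ v) x := by
    rw [h1, Complex.re_mul_ofReal, sgR_mul (Rl.ne x.2) hc.ne', sgR_pos hc, mul_one]
    rfl
  rw [h2, sgd, map_mul, map_prod]
  congr 1
  refine Finset.prod_congr (by ext m; simp) fun m hm => ?_
  have hm' := (Finset.mem_filter.1 hm).2
  rw [sgP_PP H hm', map_zpow, _root_.zpow_neg, ← _root_.inv_zpow, Int.units_inv_eq_self]
  simp only [y, dif_pos hm']
  rfl

variable {T T' : Tw k (D.grp K)} {g h : D.grp K} {t s : Fin D.R.r → Kˣ} {N : Subgroup (D.grp K)}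

theorem Fr.mul (hg : Fr T ε g t) (hc : Cj T g T') (hh : Fr T' ε h s) : Fr T ε (g * h) (s * t) := by
  have key : ∀ σ, T.a σ (g * h) = g * T'.a σ h * (g⁻¹ * T.a σ g) := fun σ => by
    rw [hc σ h, map_mul, map_mul, map_mul, map_inv]
    group
  refine ⟨fun σ e => ?_, fun σ e => ?_⟩
  · rw [key, hh.1 σ e, hg.1 σ e, inv_mul_cancel, mul_one]
  · rw [key, hh.2 σ e, hg.2 σ e, map_mul]
    group

theorem Fr.div (hg : Fr T ε g t) (hc : Cj T g T') (hh : Fr T ε h s) :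
    Fr T' ε (g⁻¹ * h) (s * t⁻¹) := by
  have key : ∀ σ, T'.a σ (g⁻¹ * h) = g⁻¹ * T.a σ h * (T.a σ g)⁻¹ * g := fun σ => by
    rw [hc σ, mul_inv_cancel_left, map_mul, map_inv]
    group
  refine ⟨fun σ e => ?_, fun σ e => ?_⟩
  · rw [key, hh.1 σ e, hg.1 σ e, inv_mul_cancel_right]
  · rw [key, hh.2 σ e, hg.2 σ e, map_mul, map_inv]
    group

theorem Fr.left (hg : Fr T ε g t) (hh : h ∈ T.fix) : Fr T ε (h * g) t :=
  ⟨fun σ e => by rw [map_mul, hh σ, hg.1 σ e], fun σ e => by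
    rw [map_mul, hh σ, hg.2 σ e, mul_assoc]⟩

theorem Fr.fix (hg : Fr T ε g t) (hh : Fr T ε h t) : h * g⁻¹ ∈ T.fix := fun σ => by
  rcases Int.units_eq_one_or (ε σ) with e | e
  · rw [map_mul, map_inv, hg.1 σ e, hh.1 σ e]
  · rw [map_mul, map_inv, hg.2 σ e, hh.2 σ e]
    group

theorem Fr.uniq (hD : SC D) (hε : ∃ θ, ε θ = -1) (hg : Fr T ε g t) (hh : Fr T ε g s) : t = s :=
  hε.elim fun θ e => hD.hT_inj (mul_left_cancel ((hg.2 θ e).symm.trans (hh.2 θ e)))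

theorem Fr.right (ah : ∀ σ (s t : Fin D.R.r → Kˣ), (∀ m, (t (π σ m) : K) = σ (s m)) →
      T.a σ (hT D K s) = hT D K t ^ (ε σ : ℤ)) (hg : Fr T ε g t)
    (hs : s ∈ EQ π fun σ => ε σ = 1) {n : Fin D.R.r → Kˣ}
    (hn : ∀ θ, ε θ = -1 → ∀ m, (n (π θ m) : K) = s (π θ m) * θ (s m)) :
    Fr T ε (g * hT D K s) (t * n⁻¹) := by
  refine ⟨fun σ e => ?_, fun σ e => ?_⟩
  · rw [map_mul, hg.1 σ e, ah σ s s (hs σ e), e]
    simp
  · rw [map_mul, hg.2 σ e, ah σ s (n * s⁻¹) fun m => by simp [hn σ e m, mul_comm], e, mul_assoc,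
      mul_assoc, ← map_zpow, ← map_mul, ← map_mul]
    congr 2
    simp only [Units.val_neg, Units.val_one, Int.reduceNeg, _root_.zpow_neg, zpow_one, mul_inv,
      inv_inv]
    rw [mul_comm s, mul_assoc]

theorem exists_nrm (hε : ∃ θ, ε θ = -1) (hs : s ∈ EQ π fun σ => ε σ = 1) : ∃ n : Fin D.R.r → Kˣ,
    ∀ θ, ε θ = -1 → ∀ m, (n (π θ m) : K) = s (π θ m) * θ (s m) := by
  obtain ⟨θ, e⟩ := hε
  refine ⟨fun j => s j * Units.map (θ : K →* K) (s (π θ⁻¹ j)), fun τ e' m => ?_⟩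
  have := hs (θ⁻¹ * τ) (by simp [e, e']) m
  simp only [Units.val_mul, Units.coe_map, MonoidHom.coe_coe]
  rw [← Equiv.Perm.mul_apply, ← map_mul, this]
  simp

variable (T ε) in
/-- the frames -/
def FF : Type := {x : D.grp K × (Fin D.R.r → Kˣ) // Fr T ε x.1 x.2}

variable (T ε π N) in
/-- the classes of the frames -/
def FS : Setoid (FF ε T) where
  r x y := ∃ n ∈ N, ∃ s ∈ EQ π fun σ => ε σ = 1, y.1.1 = n * x.1.1 * hT D K s
  iseqv :=
    ⟨fun _ => ⟨1, one_mem _, 1, one_mem _, by simp⟩,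
      fun ⟨n, hn, s, hs, e⟩ => ⟨n⁻¹, inv_mem hn, s⁻¹, inv_mem hs, by rw [e, map_inv]; group⟩,
      fun ⟨n, hn, s, hs, e⟩ ⟨n', hn', s', hs', e'⟩ =>
        ⟨n' * n, mul_mem hn' hn, s * s', mul_mem hs hs', by rw [e', e, map_mul]; group⟩⟩

theorem hT_GJ (J : Set (Fin D.R.r)) (s : Fin D.R.r → Kˣ) : hT D K s ∈ (GG D K).GJ J :=
  Subgroup.mem_sup_right (GG_ok.hT_mem s)

variable [IsSepClosure k K] {d : Fin D.R.r → Kˣ}

theorem main (gal : GAL) (cj : CJX2) (cn : CONN) (mn : MVN) (ms : MVS) (ah : AHT) (pl : PLC)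
    (sn : SGN) (vk : VALK) (H : Hy ε π) (ho : Opw T ε π d) (hN : Nm T N)
    (hG : ∀ g t, Fr T ε g t → G2 π T N g) : T.fix ≤ N := by
  classical
  haveI := Glob.inf H.gl
  obtain ⟨V, φ, κ, hp⟩ := pl k K D.R.r H.gl ε π ho.near
  haveI := hp.fin
  have cj := cj k K D H.sc T ε π d ho H.ort H.ne
  have ah := ah k K D H.sc T ε π d ho H.ort
  let st : FF ε T → EQ π fun _ => True := fun x => ⟨x.1.2, (cj _ _ x.2).1⟩
  have hst : ∀ x y : FF ε T, FS ε π T N x y → PP ε π (st x) = PP ε π (st y) := by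
    rintro x y ⟨n, hn, s, hs, e⟩
    obtain ⟨u, hu⟩ := exists_nrm H.ne hs
    have h1 := Fr.uniq H.sc H.ne y.2 (e ▸ (x.2.left (hN.1 hn)).right ah hs hu)
    rw [← mul_inv_eq_one, ← map_inv, ← map_mul, PP_one]
    refine ⟨s, hs, ?_⟩
    have : (st x * (st y)⁻¹).1 = u := by simp [st, h1]
    rwa [this]
  let X := Quotient (FS ε π T N)
  let p : X → ∀ c, AA ε c := Quotient.lift (fun x => PP ε π (st x)) hst
  let adj : OO π → OO π → X → X → Prop := fun c c' x y => ∃ g g' : FF ε T, Quotient.mk _ g = x ∧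
    Quotient.mk _ g' = y ∧ g.1.1⁻¹ * g'.1.1 ∈ (GG D K).GJ ({m | oo π m = c} ∪ {m | oo π m = c'})
  have ho' : ∀ i, {m | oo π m = oo π i} = orb π i := fun i => Set.ext fun m => oo_eq
  have key := gal D.R (Chev.R_ok D) X (OO π) V (AA ε) (oo π) (fun v => {j | π (κ v) j = j})
    (sgP π hp) (fun v j => sgR (φ v (d j)).re) p adj (sgP_loc hp) ?_ ?_ ?_ ?_ ?_ ?_ ?_
  · intro γ hγ
    have f1 : Fr T ε γ 1 := by simpa using (fr_one (T := T) (ε := ε)).left hγ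
    have h1 : ∀ g, Relation.ReflTransGen (fun x y => (∃ s, Fr T ε y s) ∧
        ∃ i, x⁻¹ * y ∈ (GG D K).GJ (orb π i)) 1 g → ∃ (s : _) (hs : Fr T ε g s),
          Relation.ReflTransGen (fun x y => ∃ c, adj c c x y)
            (Quotient.mk _ (⟨(1, 1), fr_one⟩ : FF ε T)) (Quotient.mk _ (⟨(g, s), hs⟩ : FF ε T)) := by
      intro g hg
      induction hg with
      | refl => exact ⟨1, fr_one, .refl⟩
      | tail _ h2 ih =>
        obtain ⟨⟨s, hs⟩, i, h3⟩ := h2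
        obtain ⟨s', hs', ih⟩ := ih
        exact ⟨s, hs, ih.tail ⟨oo π i, _, _, rfl, rfl, by rwa [Set.union_self, ho']⟩⟩
    obtain ⟨s, hs, h2⟩ := h1 γ (cn k K D H.sc T ε π d ho H.ort H.ne γ 1 f1)
    obtain rfl := Fr.uniq H.sc H.ne f1 hs
    obtain ⟨n, hn, s, -, e⟩ := Quotient.exact (key _ _ h2 rfl)
    have e' : γ = n * hT D K s := by simpa using e
    let i : Fin D.R.r := ⟨0, (Chev.R_ok D).pos⟩
    have h3 := hG 1 1 fr_one i i _ (hT_GJ _ s) (by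
      simpa [e'] using mul_mem (inv_mem (hN.1 hn)) hγ)
    exact e' ▸ mul_mem hn (by simpa using h3)
  · intro v j hj
    obtain ⟨t, h1, h2, h3, h4⟩ := sn k K D.R.r H.gl ε π ho.near V φ κ hp v j hj
    let t' : TT (oo π j) := ⟨t, h1, fun m hm => h2 m fun h => hm (oo_eq.2 h)⟩
    refine ⟨mA ε _ t', ?_, fun v' j' hj' hne => ?_⟩
    · rw [← PP_TT, sgP_PP hp hj]
      exact sgR_neg h3
    · rw [← PP_TT, sgP_PP hp hj']
      exact sgR_pos (h4 v' j' hj' hne)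
  · refine fun c c' => ⟨fun x => ?_, ?_, ?_⟩
    · obtain ⟨g, rfl⟩ := Quotient.exists_rep x
      exact ⟨g, g, rfl, rfl, by simp⟩
    · rintro _ _ ⟨g, g', rfl, rfl, h⟩
      exact ⟨g', g, rfl, rfl, by simpa using inv_mem h⟩
    · rintro _ _ _ ⟨g, g', rfl, rfl, h⟩ ⟨g2, g3, e, rfl, h'⟩
      obtain ⟨n, hn, s, -, e⟩ := Quotient.exact e.symm
      refine ⟨⟨(n * g.1.1, g.1.2), g.2.left (hN.1 hn)⟩, g3, Eq.symm
        (Quotient.sound (s := FS ε π T N) ⟨n, hn, 1, one_mem _, by simp⟩), rfl, ?_⟩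
      convert mul_mem (mul_mem h (hT_GJ _ s)) h' using 1
      rw [e]
      group
  · rintro c c' _ _ ⟨g, g', rfl, rfl, h⟩
    exact ⟨g, g', rfl, rfl, by rwa [Set.union_comm]⟩
  · rintro c c' _ _ ⟨g, g', rfl, rfl, h⟩
    exact ⟨g, g', rfl, rfl, GJ_mono _ (by simp) h⟩
  · rintro c _ _ ⟨g, g', rfl, rfl, h⟩
    obtain ⟨i, rfl⟩ := oo_surj c
    rw [Set.union_self, ho'] at h
    obtain ⟨-, T', hc, -, ho2⟩ := cj _ _ g.2
    obtain ⟨h1, s, hs, h2⟩ := mn k K D H.sc T' ε π _ ho2 H.ort i _ h _ (g.2.div hc g'.2)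
    have h3 : PP ε π (st g' * (st g)⁻¹) = _ := PP_single ε (c := oo π i) fun c' hc' =>
      cut_nn ε c' hs fun θ e m hm => h2 m (fun h => hc' (hm.symm.trans (oo_eq.2 h))) θ e
    refine ⟨mA ε _ (cuT _ (st g' * (st g)⁻¹)), ?_, fun v j hj hj' h4 => ?_⟩
    · rw [← h3, map_mul, map_inv]
      exact (mul_mul_inv_cancel'_right _ _).symm
    · rw [← h3, sgP_PP hp hj]
      have h5 := sgR_eq.1 ((sgd_eq hp ho.dg ho.eqt (st g) hj).symm.trans h4)
      obtain ⟨a, b, -, -, h6⟩ := h1 j (oo_eq.1 hj') _ (hp.neg v) hj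
      have h7 : (φ v (nd d g.1.2 j)).im = 0 := hp.rl hj ho2.eqt
      refine sgR_pos (lt_of_le_of_ne ?_ (Rl.ne (hp.rl hj (st g' * (st g)⁻¹).2)).symm)
      erw [h6]
      rw [map_sub, map_mul (φ v) _ (b * _), re_nrm (hp.cj v), re_nrm (hp.cj v), Complex.sub_re,
        Complex.re_mul_ofReal, Complex.ofReal_re]
      exact sub_nonneg.2 ((mul_nonpos_of_nonpos_of_nonneg h5.le (Complex.normSq_nonneg _)).trans
        (Complex.normSq_nonneg _))
  · intro c x a h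
    obtain ⟨g, rfl⟩ := Quotient.exists_rep x
    obtain ⟨t, rfl⟩ := mA_surj ε c a
    obtain ⟨i, rfl⟩ := oo_surj c
    obtain ⟨-, T', hc, -, ho2⟩ := cj _ _ g.2
    have h1 := vk k K D.R.r H.gl ε π ho.near V φ κ hp _ t.1 i ho2.eqt t.2.1 fun v j hj hj' h2 => by
      have h3 := h v j hj' (oo_eq.2 hj) ((sgd_eq hp ho.dg ho.eqt (st g) hj').trans (sgR_neg h2))
      rw [← PP_TT, sgP_PP hp hj'] at h3
      exact pos_of_sgR (Rl.ne (hp.rl hj' t.2.1)) h3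
    obtain ⟨u, hu, h2⟩ := ms k K D H.sc T' ε π _ ho2 H.ort H.ne i t.1 t.2.1
      (fun m hm => t.2.2 m fun h => hm (oo_eq.1 h)) h1
    refine ⟨Quotient.mk _ ⟨(_, _), g.2.mul hc h2⟩, ⟨g, _, rfl, rfl, ?_⟩, ?_⟩
    · rw [Set.union_self, ho', inv_mul_cancel_left]
      exact Subgroup.mem_sup_left hu
    · rw [← PP_TT]
      exact (map_mul (PP ε π) ⟨t.1, t.2.1⟩ (st g)).trans (mul_comm _ _)
  · rintro c c' _ _ ⟨g, g', rfl, rfl, h⟩ e
    obtain ⟨i, rfl⟩ := oo_surj c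
    obtain ⟨j, rfl⟩ := oo_surj c'
    rw [ho', ho'] at h
    have e' : PP ε π (st g' * (st g)⁻¹) = 1 := by
      rw [map_mul, map_inv, mul_inv_eq_one]
      exact e.symm
    obtain ⟨s, hs, h1⟩ := (PP_one ε).1 e'
    have h2 := g'.2.right ah hs h1
    have h3 : g'.1.2 * (st g' * (st g)⁻¹).1⁻¹ = g.1.2 := by simp [st]
    rw [h3] at h2
    have h4 := hG _ _ g.2 i j _ (mul_mem h (hT_GJ _ s)) (by
      convert g.2.fix h2 using 1
      group)
    exact Quotient.sound ⟨_, h4, s⁻¹, inv_mem hs, by rw [map_inv]; group⟩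

/-- **The gallery argument.** -/
theorem dopp (gal : GAL) (cn : CONN) (mn : MVN) (ms : MVS)
    (lv : LV2) (ng : NAG) (isf : ISOF) (ti : TISO) (tx : TORX) (pl : PLC) (sn : SGN) (vk : VALK)
    (rk : RK2) (opi : OPI) : DOPP := by
  intro k K _ _ _ _ D hk hD T hA ht ε π c h N hN hc
  haveI := Glob.inf hk
  have cj : CJX2 := P011UGC5.cjx2
  have ah := aht
  obtain ⟨π', d, ho, h1, h2⟩ := P011UGC5.opn k K D hD T hA ε π c h
  have H : Hy ε π' := ⟨hk, hD, hA, h1, h.1, h2 ht⟩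
  have h3 : Nm T (N.map T.fix.subtype) := ⟨Subgroup.map_subtype_le _, by
    rintro g hg _ ⟨n, hn, rfl⟩
    exact ⟨_, hN.conj_mem n hn ⟨g, hg⟩, rfl⟩⟩
  have h4 : Nc T (N.map T.fix.subtype) := by
    by_contra h5
    refine hc fun n hn => Subgroup.mem_center_iff.2 fun g => Subtype.ext ?_
    by_contra h6
    exact h5 ⟨n.1, ⟨n, hn, rfl⟩, g.1, g.2, fun e => h6 e.symm⟩
  have h5 := main gal cj cn mn ms ah pl sn vk H ho h3 fun g t hg =>
    g2_all rk ng lv cj cn isf ti tx H ho (fun h6 => opi k K D hk hD T h6 hA ε π c h) h3 h4 hg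
  refine eq_top_iff.2 fun g _ => ?_
  obtain ⟨n, hn, e⟩ := h5 g.2
  exact (Subtype.ext e : n = g) ▸ hn

end Vale.Agent.P011UGA
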