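import Vale.Agent.P011UGA.IF3
import Vale.Agent.P011UGA.Main
import Vale.Agent.P011UGR1.Main
import Vale.Agent.P011UGM1.Main

/-!
The start of the gallery argument: the induction on the rank.
-/

set_option autoImplicit false
set_option linter.all false

namespace Vale.Agent.P011UGA

open Matrix Vale.Agent.P011L Vale.Agent.P011LZ Vale.Agent.P183CH Vale.Agent.P183CH.Chev
  Vale.Agent.P011U Vale.Agent.P011UC Vale.Agent.P011UP Vale.Agent.P011UGR1

/-- The choice exists for all big types. -/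
def CMA : Prop := ∀ R : RS, R.Ok → Big R.A → Cho R

theorem cma (b : CMB) (c : CMC) (d : CMD) (e : CME) : CMA := by
  rintro R hR (⟨n, h, t⟩ | ⟨n, h, t⟩ | ⟨n, h, t⟩ | t)
  exacts [b R hR n h t, c R hR n h t, d R hR n h t, e R hR t]

theorem rv_zpow {R : RS} {K : Type} [Field K] (z : Kˣ) (y : Fin R.r → ℤ) (γ : R.Q) :
    rv (fun m => z ^ y m) γ = z ^ pw y γ := by
  simp only [rv, pw, ← _root_.zpow_mul, mul_comm (y _)]
  induction (Finset.univ : Finset (Fin R.r)) using Finset.cons_induction with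
  | empty => simp
  | cons a s h ih => rw [Finset.prod_cons, Finset.sum_cons, ih, _root_.zpow_add]

section

variable {k K : Type} [Field k] [Field K] [Algebra k K] [IsSepClosure k K]
  {ε : (K ≃ₐ[k] K) →* ℤˣ}

theorem ex_q (hk : Glob k) [CharZero k] (hε : ∃ θ, ε θ = -1) (nr : Near k fun τ => ε τ = 1)
    {q : ℤ} (hq : q = 0 ∨ q = 2) : ∃ z : Kˣ,
      (∀ σ : K ≃ₐ[k] K, Units.map (σ : K →* K) z ^ (ε σ : ℤ) = z) ∧ ∀ m : ℤ, z ^ m = 1 ↔ q ∣ m := by
  haveI : CharZero K := charZero_of_injective_algebraMap (algebraMap k K).injective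
  rcases hq with rfl | rfl
  · obtain ⟨F, _, hF⟩ := nr
    obtain ⟨u, v, g, ne⟩ := P011UK.ex_gen hε F fun σ s =>
      hF σ ((IntermediateField.mem_fixingSubgroup_iff _ _).1 s)
    obtain ⟨z, h1, h2⟩ := P011UGM1.ex_z hk g ne
    refine ⟨z, h1, fun m => ⟨fun e => ?_, fun e => by rw [zero_dvd_iff.1 e, zpow_zero]⟩⟩
    by_contra h
    exact h2 m.natAbs (Int.natAbs_pos.2 fun e => h (e ▸ dvd_refl _)) (by
      rcases Int.natAbs_eq m with a | a
      · rw [← zpow_natCast, ← a, e]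
      · rw [← zpow_natCast, ← inv_eq_one, ← _root_.zpow_neg, ← a, e])
  · refine ⟨-1, fun σ => ?_, fun m => ?_⟩
    · have : Units.map (σ : K →* K) (-1 : Kˣ) = -1 := Units.ext (by simp)
      rw [this]
      rcases Int.units_eq_one_or (ε σ) with a | a <;> simp [a]
    · rcases Int.even_or_odd m with a | a
      · exact iff_of_true a.neg_one_zpow (even_iff_two_dvd.1 a)
      · refine iff_of_false (fun e => ?_) fun e => Int.not_even_iff_odd.2 a (even_iff_two_dvd.2 e)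
        have := congrArg Units.val (a.neg_one_zpow.symm.trans e)
        simp only [Units.val_neg, Units.val_one] at this
        norm_num at this

/-- the conclusion -/
def Go {D : Chev} (T : Tw k (D.grp K)) (π : (K ≃ₐ[k] K) →* Equiv.Perm (Fin D.R.r)) : Prop :=
  ∀ N, Nm T N → Nc T N → ∃ i, ∃ a ∈ N ⊓ FJ T (orb π i), ∃ b ∈ FJ T (orb π i), ¬Commute a b

theorem go_ps (ng : NAG) (hk : Glob k) {D : Chev} (hD : SC D) {T : Tw k (D.grp K)} {π d}
    (o : Opw T ε π d) (ho : Ort D.R π) (h : PSimple T.fix) : Go T π := by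
  rintro N hN ⟨n, hn, g, hg, e⟩
  have i : Fin D.R.r := ⟨0, (R_ok D).pos⟩
  obtain ⟨x, hx, y, hy, e'⟩ := ng k K D hk hD T ε π d o ho i
  exact ⟨i, x, ⟨le_of_ps hN le_rfl h hn (hN.1 hn) hg e hx.1, hx⟩, y, hy, by
    simpa using e' 1 one_pos⟩

theorem go_all (key : KEY) (rnk : RNK) (psh : PSH) (cm : CMA) (ng : NAG) (b2 : BB2) (a3 : BA3)
    (hk : Glob k) [CharZero k] (hε : ∃ θ, ε θ = -1) (r : ℕ) : ∀ (D : Chev), D.r = r → SC D →
      ∀ (T : Tw k (D.grp K)) π d, Opw T ε π d → Ort D.R π →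
        (∀ σ τ, π σ = 1 ∨ π τ = 1 ∨ π σ = π τ) → (Big D.R.A ∨ Tm D.R.A (CartanMatrix.B 2) ∨
          Tm D.R.A (CartanMatrix.A 3)) → Go T π := by
  haveI := Glob.inf hk
  induction r using Nat.strong_induction_on with
  | _ r ih =>
  rintro D rfl hD T π d o ho h2 (hb | hb | hb)
  rotate_left
  · exact go_ps ng hk hD o ho (b2 k K D hk hD T ε π d o hb hε)
  · exact go_ps ng hk hD o ho (a3 k K D hk hD T ε π d o hb)
  obtain ⟨p, hp, hp2, h3⟩ : ∃ p, Dg D.R p ∧ p * p = 1 ∧ ∀ σ, π σ = 1 ∨ π σ = p := by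
    by_cases h : ∀ σ, π σ = 1
    · exact ⟨1, fun _ _ => rfl, mul_one _, fun σ => .inl (h σ)⟩
    obtain ⟨τ, h⟩ := not_forall.1 h
    refine ⟨π τ, o.dg τ, ?_, fun σ => (h2 σ τ).imp_right fun e => e.resolve_left h⟩
    rcases h2 (τ * τ) τ with e | e | e
    · rwa [map_mul] at e
    · exact absurd e h
    · rw [map_mul] at e
      exact absurd (mul_left_cancel (e.trans (mul_one _).symm)) h
  obtain ⟨j, y, q, hj, hy, hq, ⟨i, hi, hi'⟩, hc, cn, m, ι, hι, ty⟩ := cm D.R (R_ok D) hb p hp hp2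
  obtain ⟨z, hz, hz'⟩ := ex_q hk hε (o.near.imp fun F h => ⟨h.1, fun τ e => (h.2 τ e).1⟩) hq
  have h4 : ∀ σ, π σ j = j := fun σ => (h3 σ).elim (fun e => by rw [e]; rfl) fun e => e ▸ hj
  have h5 : ∀ σ m, y (π σ m) = y m := fun σ m =>
    (h3 σ).elim (fun e => by rw [e]; rfl) fun e => e ▸ hy m
  have h6 : hT D K (fun m => z ^ y m) ∈ T.fix := fun σ => by
    rw [aht k K D hD T ε π d o ho σ _ (fun m => Units.map (σ : K →* K) z ^ y m) fun m => by
      simp [h5], ← map_zpow]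
    congr 1
    funext m
    rw [Pi.pow_apply, ← _root_.zpow_mul, mul_comm, _root_.zpow_mul, hz]
  have h7 : ∀ σ, ∀ i ∈ {i | i ≠ j}, π σ i ∈ {i | i ≠ j} := fun σ i hi e =>
    hi ((π σ).injective (e.trans (h4 σ).symm))
  intro N hN hN'
  obtain ⟨a, ha, b, hb, e⟩ := psh k K D hD T ε π d o ho _ ⟨i, hi⟩ cn h7 N hN fun cz =>
    rnk k K D hD T inferInstance j cn _ h6 ⟨i, hi, by rwa [rv_zpow, Ne, hz']⟩
      (by simpa only [rv_zpow, Ne, hz'] using hc) N hN hN' cz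
      (key k K D hD T ε π d o ho inferInstance j h4 _ h6 N hN cz)
  have mi : ∀ a, ι a ∈ {i | i ≠ j} := fun a => hι ▸ Set.mem_range_self a
  obtain ⟨i0, rfl⟩ : i ∈ Set.range ι := hι ▸ hi
  have s : LieAlgebra.IsSimple ℂ (sL D ι) := sub_simple i0.pos fun P a b ha hP => by
    obtain ⟨c, e, h⟩ := cn (fun x => ∃ a, ι a = x ∧ P a) _ (mi a) _ (mi b) ⟨a, rfl, ha⟩ (by
      rintro _ - x hx ⟨a, rfl, ha⟩ e
      obtain ⟨c, rfl⟩ : x ∈ Set.range ι := hι ▸ hx
      exact ⟨c, rfl, hP a c ha e⟩)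
    exact ι.injective e ▸ h
  rw [← hι] at ha hb h7
  obtain ⟨T', π', o', g1, g2, -⟩ := exists_sub s o h7
  have g3 : ∀ σ, π σ = 1 → π' σ = 1 := fun σ e =>
    Equiv.ext fun a => ι.injective ((g1 σ a).trans (congrArg (· (ι a)) e))
  have fx : ∀ g, g ∈ T'.fix ↔ inc K s g ∈ T.fix := fun g =>
    ⟨fun h σ => (g2 σ g).symm.trans (congrArg _ (h σ)), fun h σ => inc_inj s ((g2 σ g).trans (h σ))⟩
  obtain ⟨a, rfl⟩ := inc_surj s ha.2.2
  obtain ⟨b, rfl⟩ := inc_surj s hb.2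
  have lt : m < D.r := by
    have := Fintype.card_lt_of_injective_of_notMem ι ι.injective (b := j) (by
      rw [hι]
      exact fun h => h rfl)
    simpa using this
  obtain ⟨c, x, hx, w, hw, e'⟩ := ih m lt (subD D ι s) rfl (subD_sc s hD) T' π' _ o'
    (fun σ a h => (congrArg₂ D.R.A (g1 σ a) rfl).trans
      (ho σ _ fun e => h (ι.injective ((g1 σ a).trans e))))
    (fun σ τ => (h2 σ τ).imp (g3 σ) (Or.imp (g3 τ) fun e => Equiv.ext fun a => ι.injective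
      ((g1 σ a).trans ((congrArg (· (ι a)) e).trans (g1 τ a).symm)))) ty (N.comap (inc K s))
    ⟨fun g hg => (fx g).2 (hN.1 hg), fun g hg n hn => by
      simpa [Subgroup.mem_comap] using hN.2 _ ((fx g).1 hg) _ hn⟩
    ⟨a, ha.1, b, (fx b).2 hb.1, fun h => e (h.map _)⟩
  have fj : ∀ g ∈ FJ T' (orb π' c), inc K s g ∈ FJ T (orb π (ι c)) := fun g hg => by
    refine ⟨(fx g).1 hg.1, ?_⟩
    have := hg.2
    rw [LJ_eq (R_ok _) GG_ok] at this ⊢
    refine Subgroup.mem_comap.1 ((Subgroup.closure_le (Subgroup.comap (inc K s) _)).2 ?_ this)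
    rintro _ ⟨_, ⟨σ, rfl⟩, t, rfl | rfl⟩
    · exact Subgroup.subset_closure ⟨_, ⟨σ, (g1 σ c).symm⟩, t, .inl (inc_e s _ t)⟩
    · exact Subgroup.subset_closure ⟨_, ⟨σ, (g1 σ c).symm⟩, t, .inr (inc_f s _ t)⟩
  exact ⟨ι c, _, ⟨hx.1, fj x hx.2⟩, _, fj w hw, fun h => e' (h.of_map (inc_inj s))⟩

end

theorem tory (key : KEY) (rnk : RNK) (psh : PSH) (cm : CMA) (ng : NAG) (b2 : BB2) (a3 : BA3)
    (g2 : BG2) : TORY := by
  intro k K _ _ _ _ D hk hD T ε π d o hA h6 ho hε h2 nf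
  have go := go_all key rnk psh cm ng b2 a3 hk hε _ D rfl hD T π d o ho h2
  rcases cls D.R (R_ok D) with h | ⟨n, e, l, t⟩ | ⟨n, e, l, t⟩ | ⟨n, e, l, t⟩ | h | h | h | h | h
  · exact absurd h hA
  · rcases l.eq_or_lt with rfl | l
    · exact go (.inr (.inl ⟨e, t⟩))
    · exact go (.inl (.inl ⟨n, l, e, t⟩))
  · exact go (.inl (.inr (.inl ⟨n, l, e, t⟩)))
  · exact go (.inl (.inr (.inr (.inl ⟨n, l, e, t⟩))))
  · exact absurd h h6
  · exact go (.inl (.inr (.inr (.inr (.inl h)))))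
  · exact go (.inl (.inr (.inr (.inr (.inr (.inl h))))))
  · exact go (.inl (.inr (.inr (.inr (.inr (.inr h))))))
  · exact go_ps ng hk hD o ho (g2 k K D hk hD T ε π d o h hε)

theorem g2_all2 {k K : Type} [Field k] [Field K] [Algebra k K] [IsSepClosure k K] {D : Chev}
    {ε : (K ≃ₐ[k] K) →* ℤˣ} {π : (K ≃ₐ[k] K) →* Equiv.Perm (Fin D.R.r)} {T : Tw k (D.grp K)}
    {d : Fin D.R.r → Kˣ} {N : Subgroup (D.grp K)} (rk : RK2) (ng : NAG) (lv : LV2) (cj : CJX2)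
    (cn : CONN) (isf : ISOF) (ti : TISO) (H : Hy ε π) (ho : Opw T ε π d) (tx : T.Ani → Go T π)
    (hN : Nm T N) (hc : Nc T N) {g : D.grp K} {t : Fin D.R.r → Kˣ} (hg : Fr T ε g t) :
    G2 π T N g := by
  haveI := Glob.inf H.gl
  have key : ∀ g t, Fr T ε g t → (G2 π T N 1 ↔ G2 π T N g) := fun g t hg => by
    have h1 := cn k K D H.sc T ε π d ho H.ort H.ne g t hg
    clear hg
    suffices (∃ s, Fr T ε g s) ∧ (G2 π T N 1 ↔ G2 π T N g) from this.2
    induction h1 with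
    | refl => exact ⟨⟨1, fr_one⟩, Iff.rfl⟩
    | tail _ h2 ih =>
      obtain ⟨⟨s, hs⟩, i, h3⟩ := h2
      obtain ⟨⟨s', hs'⟩, ih⟩ := ih
      refine ⟨⟨s, hs⟩, ih.trans ⟨fun h => ?_, fun h => ?_⟩⟩
      · exact g2_of_g1 rk ng lv cj H ho hN hs ((h.g1 i).step h3)
      · exact g2_of_g1 rk ng lv cj H ho hN hs' ((h.g1 i).step (by simpa using inv_mem h3))
  rw [← key g t hg]
  by_cases an : T.Ani
  · obtain ⟨i, a, ha, h⟩ := tx an N hN hc
    exact g2_of rk ng lv H hN (T' := T) (fun σ x => by simp) ho (i := i)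
      ⟨a, ⟨by simpa [mem_tr] using ha.1, ha.2⟩, h⟩
  · obtain ⟨g, t, i, hg, hi⟩ := isf k K D H.sc T ε π d ho H.ort H.ne an
    obtain ⟨-, T', h1, -, ho'⟩ := cj k K D H.sc T ε π d ho H.ort H.ne g t hg
    rw [key g t hg]
    exact g2_of rk ng lv H hN h1 ho'
      ((ti k K D H.sc T' ε π _ ho' H.ort H.ne i hi).2 _ (h1.nm hN) (h1.nc hc))

theorem dopp2 (gal : GAL) (cn : CONN) (mn : MVN) (ms : MVS) (lv : LV2) (ng : NAG) (isf : ISOF)
    (ti : TISO) (ty : TORY) (pl : PLC) (sn : SGN) (vk : VALK) (rk : RK2) (opi : OPI) : DOPP2 := by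
  intro k K _ _ _ _ D hk hD T hA ht h6 ε π c h N hN hc
  haveI := Glob.inf hk
  obtain ⟨π', d, ho, h1, h2⟩ := P011UGC5.opn k K D hD T hA ε π c h
  have H : Hy ε π' := ⟨hk, hD, hA, h1, h.1, h2 ht⟩
  have h3 : Nm T (N.map T.fix.subtype) := ⟨Subgroup.map_subtype_le _, by
    rintro g hg _ ⟨n, hn, rfl⟩
    exact ⟨_, hN.conj_mem n hn ⟨g, hg⟩, rfl⟩⟩
  have h4 : Nc T (N.map T.fix.subtype) := by
    by_contra h5
    refine hc fun n hn => Subgroup.mem_center_iff.2 fun g => Subtype.ext ?_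
    by_contra h6
    exact h5 ⟨n.1, ⟨n, hn, rfl⟩, g.1, g.2, fun e => h6 e.symm⟩
  have h5 := main gal P011UGC5.cjx2 cn mn ms aht pl sn vk H ho h3 fun g t hg =>
    g2_all2 rk ng lv P011UGC5.cjx2 cn isf ti H ho (fun an => by
      have nf : NumberField k := not_not.1 fun h7 => opi k K D hk hD T h7 hA ε π c h an
      exact ty k K D hk hD T ε π' d ho hA (h6 an nf) h1 h.1 (h2 ht) nf) h3 h4 hg
  refine eq_top_iff.2 fun g _ => ?_
  obtain ⟨n, hn, e⟩ := h5 g.2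
  exact (Subtype.ext e : n = g) ▸ hn

end Vale.Agent.P011UGA
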