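import Vale.Agent.P011U.IF3
import Vale.Agent.P011UA.A0
import Mathlib.Data.Complex.Basic

/-!
The gallery argument: definitions and interfaces.
-/

set_option autoImplicit false
set_option linter.all false

namespace Vale.Agent.P011UGA

open Matrix Vale.Agent.P011L Vale.Agent.P011LZ Vale.Agent.P183CH Vale.Agent.P011U

/-! ### Combinatorics -/

/-- The relations of rank at most two present the Weyl group. -/
def COX : Prop := ∀ (R : RS), R.Ok → ∀ (G : Type) [Group G] (s : Fin R.r → G) (J : Set (Fin R.r)),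
  (∀ j ∈ J, ∀ m ∈ J, ∀ l : List (Fin R.r), (∀ i ∈ l, i = j ∨ i = m) → R.wd l = 1 →
    (l.map s).prod = 1) →
  ∀ l : List (Fin R.r), (∀ i ∈ l, i ∈ J) → R.wd l = 1 → (l.map s).prod = 1

/-- The stabiliser of a coweight modulo twice the coroot lattice is generated by reflections. -/
def AFF : Prop := ∀ (R : RS), R.Ok → ∀ (J : Set (Fin R.r)) (y : R.Q →ₗ[ℤ] ℤ), ∀ w ∈ R.WJ J,
  ∀ n : Fin R.r → ℤ, R.In J n → (∀ γ, y (w γ) = y γ + 2 * ∑ m, n m * R.pr γ m) →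
    w ∈ Subgroup.closure {v | ∃ u ∈ R.WJ J, ∃ j ∈ J, Even (y (u (R.α j))) ∧ v = u * R.sE j * u⁻¹}

/-- One real place. `q` is the state, `e` the parity of the simple roots. -/
def CA : Prop := ∀ (R : RS), R.Ok → ∀ (J : Set (Fin R.r)) (Y : Type) (s : Fin R.r → Equiv.Perm Y)
  (q e : Y → Fin R.r → ZMod 2) (e0 : Fin R.r → ZMod 2),
  (∀ y j, j ∉ J → q y j = 0) → (∀ y, ∀ j ∈ J, e y j = e0 j + ∑ m, (R.A j m : ZMod 2) * q y m) →
  (∀ y, ∀ j ∈ J, q (s j y) = q y + Pi.single j (e y j)) → (∀ y, ∀ j ∈ J, e y j = 0 → s j y = y) →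
  (∀ j ∈ J, ∀ m ∈ J, ∀ l : List (Fin R.r), (∀ i ∈ l, i = j ∨ i = m) → ∀ y,
    q ((l.map s).prod y) = q y → (l.map s).prod y = y) →
  ∀ l : List (Fin R.r), (∀ i ∈ l, i ∈ J) → ∀ y, q ((l.map s).prod y) = q y → (l.map s).prod y = y

open Classical in
/-- The sign of the constant of the node `j` at the real place `v` in the state `t`. -/
noncomputable def sgd {R : RS} {V B : Type} [Group B] (J : V → Set (Fin R.r))
    (sg : V → Fin R.r → B →* ℤˣ) (e0 : V → Fin R.r → ℤˣ) (t : B) (v : V) (j : Fin R.r) : ℤˣ :=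
  e0 v j * ∏ m ∈ Finset.univ.filter (· ∈ J v), sg v m t ^ R.A j m

/-- The space of the states is simply connected. -/
def GAL : Prop := ∀ (R : RS), R.Ok → ∀ (X O V : Type) [Fintype O] [DecidableEq O] [Finite V]
  (A : O → Type) [∀ c, CommGroup (A c)] (o : Fin R.r → O) (J : V → Set (Fin R.r))
  (sg : V → Fin R.r → (∀ c, A c) →* ℤˣ) (e0 : V → Fin R.r → ℤˣ) (p : X → ∀ c, A c)
  (adj : O → O → X → X → Prop),
  (∀ v j c a, c ≠ o j → sg v j (Pi.mulSingle c a) = 1) →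
  (∀ v, ∀ j ∈ J v, ∃ a : A (o j), sg v j (Pi.mulSingle (o j) a) = -1 ∧ ∀ v', ∀ j' ∈ J v',
    (v', j') ≠ (v, j) → sg v' j' (Pi.mulSingle (o j) a) = 1) →
  (∀ c c', Equivalence (adj c c')) → (∀ c c' x y, adj c c' x y → adj c' c x y) →
  (∀ c c' x y, adj c c x y → adj c c' x y) →
  (∀ c x y, adj c c x y → ∃ a, p y = p x * Pi.mulSingle c a ∧ ∀ v, ∀ j ∈ J v, o j = c →
    sgd J sg e0 (p x) v j = -1 → sg v j (Pi.mulSingle c a) = 1) →
  (∀ c x a, (∀ v, ∀ j ∈ J v, o j = c → sgd J sg e0 (p x) v j = -1 →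
    sg v j (Pi.mulSingle c a) = 1) → ∃ y, adj c c x y ∧ p y = p x * Pi.mulSingle c a) →
  (∀ c c' x y, adj c c' x y → p x = p y → x = y) →
  ∀ x y, Relation.ReflTransGen (fun x y => ∃ c, adj c c x y) x y → p x = p y → x = y

/-! ### Frames -/

section

variable {k K : Type} [Field k] [Field K] [Algebra k K] {r : ℕ}

/-- `t` is equivariant on the set `P`. -/
def Eqt (P : (K ≃ₐ[k] K) → Prop) (π : (K ≃ₐ[k] K) →* Equiv.Perm (Fin r)) (t : Fin r → Kˣ) : Prop :=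
  ∀ σ, P σ → ∀ i, (t (π σ i) : K) = σ (t i)

/-- The orbit of a node. -/
def orb (π : (K ≃ₐ[k] K) →* Equiv.Perm (Fin r)) (i : Fin r) : Set (Fin r) := {j | ∃ σ, π σ i = j}

/-- `a` lies in the splitting field of the node `i`. -/
def Sp (ε : (K ≃ₐ[k] K) →* ℤˣ) (π : (K ≃ₐ[k] K) →* Equiv.Perm (Fin r)) (i : Fin r) (a : K) : Prop :=
  ∀ σ, ε σ = 1 → π σ i = i → σ a = a

/-- `x` is a value of the hermitian form `⟨1, -d⟩` of the node `i`. -/
def Val (ε : (K ≃ₐ[k] K) →* ℤˣ) (π : (K ≃ₐ[k] K) →* Equiv.Perm (Fin r)) (i : Fin r) (d x : K) :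
    Prop :=
  ∀ θ, ε θ = -1 → π θ i = i → ∃ a b, Sp ε π i a ∧ Sp ε π i b ∧ x = a * θ a - d * (b * θ b)

/-- The hermitian form of the node `i` is isotropic. -/
def Iso (ε : (K ≃ₐ[k] K) →* ℤˣ) (π : (K ≃ₐ[k] K) →* Equiv.Perm (Fin r)) (i : Fin r) (d : K) :
    Prop :=
  ∀ θ, ε θ = -1 → π θ i = i → ∃ a, Sp ε π i a ∧ d = a * θ a

/-- A system of representatives of the real places of `k` at which `ε` is complex. -/
structure Plc (ε : (K ≃ₐ[k] K) →* ℤˣ) (V : Type) (φ : V → K →+* ℂ) (κ : V → K ≃ₐ[k] K) : Prop where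
  fin : Finite V
  cj : ∀ v x, φ v (κ v x) = starRingEnd ℂ (φ v x)
  neg : ∀ v, ε (κ v) = -1
  all : ∀ (ψ : K →+* ℂ) (τ : K ≃ₐ[k] K), (∀ x, ψ (τ x) = starRingEnd ℂ (ψ x)) → ε τ = -1 →
    ∃ v, ∃ σ : K ≃ₐ[k] K, ∀ x, ψ x = φ v (σ x)
  sep : ∀ v w, (∀ x : k, φ v (algebraMap k K x) = φ w (algebraMap k K x)) → v = w

variable {D : Chev} (T : Tw k (D.grp K))

/-- The parametrisation of the torus. -/
noncomputable abbrev hT (D : Chev) (K : Type) [Field K] : (Fin D.R.r → Kˣ) →* D.grp K :=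
  (GG_ok (D := D) (k := K)).hT

/-- The normalised form of `Opp`; the character `ε` may be trivial. -/
structure Opw (ε : (K ≃ₐ[k] K) →* ℤˣ) (π : (K ≃ₐ[k] K) →* Equiv.Perm (Fin D.R.r))
    (d : Fin D.R.r → Kˣ) : Prop where
  near : Near k fun τ => ε τ = 1 ∧ π τ = 1
  dg : ∀ σ, Dg D.R (π σ)
  eqt : Eqt (fun _ => True) π d
  pos : ∀ σ i u, ε σ = 1 →
    T.a σ ((GG D K).x (D.R.α i) u) = (GG D K).x (D.R.α (π σ i)) (σ u) ∧
    T.a σ ((GG D K).x (-D.R.α i) u) = (GG D K).x (-D.R.α (π σ i)) (σ u)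
  neg : ∀ σ i u, ε σ = -1 →
    T.a σ ((GG D K).x (D.R.α i) u) = (GG D K).x (-D.R.α (π σ i)) (d (π σ i) * σ u) ∧
    T.a σ ((GG D K).x (-D.R.α i) u) = (GG D K).x (D.R.α (π σ i)) (((d (π σ i))⁻¹ : Kˣ) * σ u)

/-- `g` is a frame with the state `t`. -/
def Fr (ε : (K ≃ₐ[k] K) →* ℤˣ) (g : D.grp K) (t : Fin D.R.r → Kˣ) : Prop :=
  (∀ σ, ε σ = 1 → T.a σ g = g) ∧ ∀ σ, ε σ = -1 → T.a σ g = g * hT D K t

/-- `T'` is the transport of `T` by the conjugation with `g`. -/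
def Cj (g : D.grp K) (T' : Tw k (D.grp K)) : Prop :=
  ∀ σ x, T'.a σ x = g⁻¹ * T.a σ (g * x * g⁻¹) * g

/-- The rational points of the derived group of a Levi subgroup. -/
noncomputable def FJ (J : Set (Fin D.R.r)) : Subgroup (D.grp K) := T.fix ⊓ LJ (GG D K) J

/-- `N` is a normal subgroup of the group of the rational points. -/
def Nm (N : Subgroup (D.grp K)) : Prop := N ≤ T.fix ∧ ∀ g ∈ T.fix, ∀ n ∈ N, g * n * g⁻¹ ∈ N

/-- `N` is not central. -/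
def Nc (N : Subgroup (D.grp K)) : Prop := ∃ n ∈ N, ∃ g ∈ T.fix, ¬Commute n g

end

/-- The constants in a new frame. -/
def nd {R : RS} {K : Type} [Field K] (d t : Fin R.r → Kˣ) : Fin R.r → Kˣ :=
  fun j => d j * ∏ m, t m ^ (-R.A j m)

/-- The nodes of an orbit are orthogonal. -/
def Ort {k K : Type} [Field k] [Field K] [Algebra k K] (R : RS)
    (π : (K ≃ₐ[k] K) →* Equiv.Perm (Fin R.r)) : Prop := ∀ σ i, π σ i ≠ i → R.A (π σ i) i = 0

/-- Quantifier over normalised forms over infinite fields. -/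
def AllO (P : ∀ (k K : Type) [Field k] [Field K] [Algebra k K] (D : Chev), Tw k (D.grp K) →
    ((K ≃ₐ[k] K) →* ℤˣ) → ((K ≃ₐ[k] K) →* Equiv.Perm (Fin D.R.r)) → (Fin D.R.r → Kˣ) → Prop) :
    Prop :=
  AllI fun k K _ _ _ D T => ∀ ε π d, Opw T ε π d → Ort D.R π → P k K D T ε π d

/-- Quantifier over normalised forms over global fields. -/
def AllP (P : ∀ (k K : Type) [Field k] [Field K] [Algebra k K] (D : Chev), Tw k (D.grp K) →
    ((K ≃ₐ[k] K) →* ℤˣ) → ((K ≃ₐ[k] K) →* Equiv.Perm (Fin D.R.r)) → (Fin D.R.r → Kˣ) → Prop) :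
    Prop :=
  AllG fun k K _ _ _ D T => ∀ ε π d, Opw T ε π d → P k K D T ε π d

/-- Normalisation. -/
def OPN : Prop := AllI fun _ _ _ _ _ D T => ¬TyA D.R → ∀ ε π c, Opp T ε π c →
  ∃ π' d, Opw T ε π' d ∧ Ort D.R π' ∧ (¬Tri T → ∀ σ τ, π' σ = 1 ∨ π' τ = 1 ∨ π' σ = π' τ)

/-- Transport. -/
def CJX : Prop := AllO fun k K _ _ _ D T ε π d => ∀ g t, Fr T ε g t →
  Eqt (fun _ => True) π t ∧ ∃ T' : Tw k (D.grp K), Cj T g T' ∧ Eqv T T' ∧ Opw T' ε π (nd d t)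

/-- Any two frames are connected by a gallery of frames. -/
def CONN : Prop := AllO fun _ K _ _ _ D T ε π _ => (∃ θ, ε θ = -1) → ∀ g t, Fr T ε g t →
  Relation.ReflTransGen (fun x y => (∃ s, Fr T ε y s) ∧ ∃ i, x⁻¹ * y ∈ (GG D K).GJ (orb π i)) 1 g

/-- The moves of rank one: necessary conditions. -/
def MVN : Prop := AllO fun _ K _ _ _ D T ε π d => ∀ i, ∀ h ∈ (GG D K).GJ (orb π i), ∀ t,
  Fr T ε h t → (∀ j ∈ orb π i, Val ε π j (d j) (t j)) ∧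
    ∃ s : Fin D.R.r → Kˣ, Eqt (fun σ => ε σ = 1) π s ∧ ∀ m ∉ orb π i, ∀ θ, ε θ = -1 →
      (t (π θ m) : K) = s (π θ m) * θ (s m)

/-- The moves of rank one: existence. -/
def MVS : Prop := AllO fun _ K _ _ _ D T ε π d => (∃ θ, ε θ = -1) → ∀ i t,
  Eqt (fun _ => True) π t → (∀ m ∉ orb π i, t m = 1) → Val ε π i (d i) (t i) →
    ∃ h ∈ LJ (GG D K) (orb π i), Fr T ε h t

/-- The rational points of the Levi subgroups of relative rank two. -/
def LV2 : Prop := AllO fun _ K _ _ _ D T _ π _ => ∀ N : Subgroup (D.grp K),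
  (∀ i, FJ T (orb π i) ≤ N) → ∀ i j,
  ((∃ i' ∈ orb π i, ∃ j' ∈ orb π j, D.R.A i' j' ≠ 0) → FJ T (orb π i ∪ orb π j) ≤ N) →
    T.fix ⊓ (GG D K).GJ (orb π i ∪ orb π j) ≤ N

/-- The groups of rank one are far from commutative. -/
def NAG : Prop := AllP fun _ _ _ _ _ D T _ π _ => Ort D.R π → ∀ i, ∃ a ∈ FJ T (orb π i),
  ∃ b ∈ FJ T (orb π i), ∀ m : ℕ, 0 < m → ¬Commute (a ^ m) b

/-- Isotropic forms have a frame with an isotropic node. -/
def ISOF : Prop := AllO fun _ _ _ _ _ _ T ε π d => (∃ θ, ε θ = -1) → ¬T.Ani →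
  ∃ g t i, Fr T ε g t ∧ Iso ε π i (nd d t i)

/-- The group of an isotropic node meets every noncentral normal subgroup. -/
def TISO : Prop := AllO fun _ _ _ _ _ _ T ε π d => (∃ θ, ε θ = -1) → ∀ i, Iso ε π i (d i) →
  ¬T.Ani ∧ ∀ N, Nm T N → Nc T N → ∃ a ∈ N ⊓ FJ T (orb π i), ∃ b ∈ FJ T (orb π i), ¬Commute a b

/-- The normal subgroup theorem for anisotropic groups over number fields. -/
def TORA : Prop := AllG fun k _ _ _ _ D T => ¬TyA D.R → NumberField k → T.Ani → Tors T.fix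

/-! ### Arithmetic -/

/-- Quantifier over the Galois data. -/
def AllD (P : ∀ (k K : Type) [Field k] [Field K] [Algebra k K] (r : ℕ),
    ((K ≃ₐ[k] K) →* ℤˣ) → ((K ≃ₐ[k] K) →* Equiv.Perm (Fin r)) → Prop) : Prop :=
  ∀ (k K : Type) [Field k] [Field K] [Algebra k K] [IsSepClosure k K] (r : ℕ), Glob k →
    ∀ (ε : (K ≃ₐ[k] K) →* ℤˣ) (π : (K ≃ₐ[k] K) →* Equiv.Perm (Fin r)),
      Near k (fun τ => ε τ = 1 ∧ π τ = 1) → P k K r ε π

/-- The real places. -/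
def PLC : Prop := AllD fun k K _ _ _ _ ε _ =>
  ∃ (V : Type) (φ : V → K →+* ℂ) (κ : V → K ≃ₐ[k] K), Plc ε V φ κ

/-- Independence of the signs. -/
def SGN : Prop := AllD fun _ K _ _ _ r ε π => ∀ V φ κ, Plc ε V φ κ → ∀ v j, π (κ v) j = j →
  ∃ t : Fin r → Kˣ, Eqt (fun _ => True) π t ∧ (∀ m ∉ orb π j, t m = 1) ∧ (φ v (t j)).re < 0 ∧
    ∀ v' j', π (κ v') j' = j' → (v', j') ≠ (v, j) → 0 < (φ v' (t j')).re

/-- The values of a binary hermitian form over a global field. -/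
def VAL : Prop := ∀ (l E : Type) [Field l] [Field E] [Algebra l E], Glob l →
  Module.finrank l E = 2 → ∀ θ : E ≃ₐ[l] E, θ ≠ 1 → ∀ d x : l, d ≠ 0 → x ≠ 0 →
    (∀ f : l →+* ℝ, (¬∃ F : E →+* ℝ, F.comp (algebraMap l E) = f) → f d < 0 → 0 < f x) →
    ∃ a b : E, algebraMap l E x = a * θ a - algebraMap l E d * (b * θ b)

/-- The same for the nodes. -/
def VALK : Prop := AllD fun _ K _ _ _ r ε π => ∀ V φ κ, Plc ε V φ κ → ∀ (d t : Fin r → Kˣ) i,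
  Eqt (fun _ => True) π d → Eqt (fun _ => True) π t →
    (∀ v, ∀ j ∈ orb π i, π (κ v) j = j → (φ v (d j)).re < 0 → 0 < (φ v (t j)).re) →
    Val ε π i (d i) (t i)

/-! ### The base cases -/

/-- Type `A₂`. -/
def BA2 : Prop := AllP fun _ _ _ _ _ D T _ π _ => (∃ e, Ty D.R (CartanMatrix.A 2) e) → π = 1 →
  PSimple T.fix

/-- Type `A₃`. -/
def BA3 : Prop := AllP fun _ _ _ _ _ D T _ _ _ => (∃ e, Ty D.R (CartanMatrix.A 3) e) →
  PSimple T.fix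

/-- Type `B₂`. -/
def BB2 : Prop := AllP fun _ _ _ _ _ D T ε _ _ => (∃ e, Ty D.R (CartanMatrix.B 2) e) →
  (∃ θ, ε θ = -1) → PSimple T.fix

/-- Type `G₂`. -/
def BG2 : Prop := AllP fun _ _ _ _ _ D T ε _ _ => (∃ e, Ty D.R CartanMatrix.G₂ e) →
  (∃ θ, ε θ = -1) → PSimple T.fix

/-- The groups of relative rank two with a connected diagram. -/
def RK2 : Prop := AllP fun _ _ _ _ _ D T ε π _ => ¬TyA D.R → Ort D.R π → (∃ θ, ε θ = -1) →
  (∀ σ τ, π σ = 1 ∨ π τ = 1 ∨ π σ = π τ) → ∀ i j, i ≠ j → D.R.A i j ≠ 0 →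
    PSimple (FJ T (orb π i ∪ orb π j))

end Vale.Agent.P011UGA
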