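import Vale.Agent.P011UGA.IF2
import Vale.Agent.P011UC.Defs2
import Mathlib.LinearAlgebra.Eigenspace.Basic

/-!
The start of the gallery argument by commutators: interfaces.
-/

set_option autoImplicit false
set_option linter.all false

namespace Vale.Agent.P011UGA

open Matrix Vale.Agent.P011L Vale.Agent.P011LZ Vale.Agent.P183CH Vale.Agent.P011U
  Vale.Agent.P011UC Vale.Agent.P011UP

/-- the bracket with a matrix -/
def adM {K : Type} [Field K] {n : ℕ} (X : Matrix (Fin n) (Fin n) K) :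
    Module.End K (Matrix (Fin n) (Fin n) K) := LinearMap.mulLeft K X - LinearMap.mulRight K X

/-- the generalised eigenspaces of the bracket -/
def Ge {K : Type} [Field K] {n : ℕ} (X : Matrix (Fin n) (Fin n) K) (μ : K) :
    Submodule K (Matrix (Fin n) (Fin n) K) := (adM X).maxGenEigenspace μ

/-- the Lie algebra -/
noncomputable abbrev lg (D : Chev) (K : Type) [Field K] : Submodule K (D.Mat K) := lie D K Set.univ

/-- the value of a root at an element of the torus -/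
def rv {R : RS} {K : Type} [Field K] (τ : Fin R.r → Kˣ) (γ : R.Q) : Kˣ := ∏ m, τ m ^ R.pr γ m

/-- `δ` commutes with the centraliser of `X` -/
def Bc {K : Type} [Field K] {D : Chev} (X : D.Mat K) (δ : D.grp K) : Prop :=
  ∀ M, Commute M X → Commute M δ.1.1

/-- the differential of the action -/
structure Df {k K : Type} [Field k] [Field K] [Algebra k K] {D : Chev} (T : Tw k (D.grp K))
    (A : (K ≃ₐ[k] K) → D.Mat K → D.Mat K) : Prop where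
  add : ∀ σ M N, A σ (M + N) = A σ M + A σ N
  smul : ∀ σ (c : K) M, A σ (c • M) = σ c • A σ M
  mem : ∀ σ, ∀ M ∈ lg D K, A σ M ∈ lg D K
  inv : ∀ σ, ∀ M ∈ lg D K, A σ (A σ⁻¹ M) = M
  ad : ∀ σ (g : D.grp K), ∀ M ∈ lg D K, A σ (Ad g.1 M) = Ad (T.a σ g).1 (A σ M)
  br : ∀ σ, ∀ M ∈ lg D K, ∀ N ∈ lg D K, A σ (adM M N) = adM (A σ M) (A σ N)
  span : ∀ W : Submodule K (D.Mat K), W ≤ lg D K → (∀ σ, ∀ M ∈ W, A σ M ∈ W) →
    W ≤ Submodule.span K {M | M ∈ W ∧ ∀ σ, A σ M = M}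

/-- Existence of the differential. -/
def DIF : Prop := AllO fun _ K _ _ _ D T _ π _ => ∃ A, Df T A ∧ ∀ J : Set (Fin D.R.r),
  (∀ σ, ∀ i ∈ J, π σ i ∈ J) → ∀ σ, ∀ M ∈ lie D K J, A σ M ∈ lie D K J

/-- Quantifier over simply connected data and algebraically closed fields of characteristic zero. -/
def AllC (P : ∀ (D : Chev) (K : Type) [Field K], Prop) : Prop :=
  ∀ D : Chev, SC D → ∀ (K : Type) [Field K] [CharZero K] [IsAlgClosed K], P D K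

/-- Brackets, the kernel of the adjoint representation, root vectors. -/
def LKA : Prop := AllC fun D K _ =>
  (∀ J, ∀ M ∈ lie D K J, ∀ N ∈ lie D K J, adM M N ∈ lie D K J) ∧
  (∃ e : ℕ, 0 < e ∧ ∀ g : D.grp K, (∀ M ∈ lg D K, Ad g.1 M = M) →
    g ^ e = 1 ∧ ∀ x, Commute g x) ∧
  (∀ γ ∈ D.R.Φ, ∀ Z : D.Mat K,
    Commute Z (ee D K γ) ↔ ∀ t, Commute Z ((GG D K).x γ t).1.1) ∧
  (∀ γ ∈ D.R.Φ, ∀ W : Submodule K (D.Mat K), (∀ t, ∀ Y ∈ W, Ad ((GG D K).x γ t).1 Y ∈ W) →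
    ∀ Y ∈ W, adM (ee D K γ) Y ∈ W) ∧
  (∀ i, ∀ γ ∈ D.R.Φ, adM (ct K (D.hm i)) (ee D K γ) = (D.R.pr γ i : K) • ee D K γ) ∧
  (∀ i, adM (ee D K (D.R.α i)) (ee D K (-D.R.α i)) = ct K (D.hm i)) ∧
  (∀ γ ∈ D.R.Φ, ee D K γ ≠ 0) ∧
  ∀ τ, (∀ i, Ad (hT D K τ).1 (ct K (D.hm i)) = ct K (D.hm i)) ∧
    (∀ γ ∈ D.R.Φ, Ad (hT D K τ).1 (ee D K γ) = (rv τ γ : K) • ee D K γ) ∧
    ∀ X : D.Mat K, Ad (hT D K τ).1 (Ad (hT D K τ).1 X - X) = Ad (hT D K τ).1 X - X →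
      Ad (hT D K τ).1 X = X

open Classical in
/-- The dimension of the Levi subalgebras. -/
def DIM : Prop := AllC fun D K _ => ∀ J : Set (Fin D.R.r),
  D.R.r + (D.R.Φ.filter (D.R.In J)).card ≤ Module.finrank K (lie D K J)

/-- The centre of a maximal Levi subalgebra, and the centraliser of its central torus. -/
def FXL : Prop := AllC fun D K _ => ∀ j : Fin D.R.r,
  (∀ Z ∈ lie D K {i | i ≠ j}, (∀ γ ∈ D.R.Φ, D.R.In {i | i ≠ j} γ → Commute Z (ee D K γ)) →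
    (∀ τ, Ad (hT D K τ).1 Z = Z) ∧
      (Z ≠ 0 → ∀ g : D.grp K, Ad g.1 Z = Z → g ∈ (GG D K).GJ {i | i ≠ j})) ∧
  ∀ X ∈ lie D K {i | i ≠ j}, ∀ δ : D.grp K, Bc X δ → δ ∈ (GG D K).GJ {i | i ≠ j}

/-- The algebraic hull: the torus. -/
def HUL1 : Prop := AllC fun D K _ => ∀ X ∈ lg D K, ∀ χ : Multiplicative K →* Kˣ,
  ∃ t : D.grp K, Bc X t ∧ ∀ μ, ∀ Y ∈ Ge X μ, Ad t.1 Y = (χ (.ofAdd μ) : K) • Y

/-- The algebraic hull: the unipotent part. -/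
def HUL2 : Prop := AllC fun D K _ => ∀ X ∈ lg D K, ∃ N : D.Mat K,
  (∀ μ, ∀ Y ∈ Ge X μ, adM N Y = adM X Y - μ • Y) ∧ ∃ (b : ℕ) (u : Multiplicative K →* D.grp K),
    2 ≤ b ∧ ∀ c : K, Bc X (u (.ofAdd c)) ∧ ∀ Y, Ad (u (.ofAdd c)).1 Y =
      ∑ i ∈ Finset.range b, (c ^ i / (i.factorial : K)) • (adM N ^ i) Y

/-- Equivariant characters of Galois lattices. -/
def EQC : Prop := ∀ (k K : Type) [Field k] [CharZero k] [Field K] [Algebra k K] [IsSepClosure k K]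
  (S : Finset K), (∀ σ : K ≃ₐ[k] K, ∀ x ∈ S, σ x ∈ S) → ∀ μ ∈ AddSubgroup.closure (S : Set K),
    μ ≠ 0 → ∀ e : ℕ, 0 < e → ∃ χ : Multiplicative K →* Kˣ,
      (∀ σ : K ≃ₐ[k] K, ∀ x ∈ S, (χ (.ofAdd (σ x)) : K) = σ (χ (.ofAdd x))) ∧ χ (.ofAdd μ) ^ e ≠ 1

/-- The rational points of the algebraic hull. -/
def RH : Prop := AllI fun k K _ _ _ D T => CharZero k → ∀ A, Df T A → ∀ X ∈ lg D K,
  (∀ σ, A σ X = X) → ∀ W : Submodule K (D.Mat K), W ≤ lg D K → (∀ Y ∈ W, adM X Y ∈ W) →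
    ∀ f : Module.End K (D.Mat K), (∀ Y ∈ W, f Y ∈ W) →
      (∀ δ ∈ T.fix, Bc X δ → ∀ Y ∈ W, Ad δ.1 (f Y) = f (Ad δ.1 Y)) →
        ∀ Y ∈ W, adM X (f Y) = f (adM X Y)

/-- `N` meets the Levi subgroup only in the centraliser of its derived group. -/
def Cz {K : Type} [Field K] {D : Chev} (N : Subgroup (D.grp K)) (J : Set (Fin D.R.r)) : Prop :=
  ∀ a ∈ N, a ∈ (GG D K).GJ J → ∀ b ∈ LJ (GG D K) J, Commute a b

/-- The commutator argument. -/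
def KEY : Prop := AllO fun k K _ _ _ D T _ π _ => CharZero k → ∀ j, (∀ σ, π σ j = j) → ∀ τ,
  hT D K τ ∈ T.fix → ∀ N, Nm T N → Cz N {i | i ≠ j} → ∀ n ∈ N, ∀ X ∈ lie D K {i | i ≠ j},
    Ad (n * hT D K τ * n⁻¹).1 X = X → Ad (hT D K τ).1 X = X

/-- `J` is connected. -/
def Cn (R : RS) (J : Set (Fin R.r)) : Prop :=
  ∀ P : Fin R.r → Prop, ∀ i ∈ J, ∀ j ∈ J, P i → (∀ i ∈ J, ∀ j ∈ J, P i → R.A j i ≠ 0 → P j) → P j

open Classical in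
/-- The rank argument. -/
def RNK : Prop := AllI fun k K _ _ _ D T => CharZero k → ∀ j, Cn D.R {i | i ≠ j} → ∀ τ,
  hT D K τ ∈ T.fix → (∃ i, i ≠ j ∧ rv τ (D.R.α i) ≠ 1) →
  (D.R.Φ.filter fun γ => rv τ γ ≠ 1).card < D.R.r + (D.R.Φ.filter (D.R.In {i | i ≠ j})).card →
    ∀ N, Nm T N → Nc T N → Cz N {i | i ≠ j} → ¬∀ n ∈ N, ∀ X ∈ lie D K {i | i ≠ j},
      Ad (n * hT D K τ * n⁻¹).1 X = X → Ad (hT D K τ).1 X = X

/-- From the Levi subgroup to the rational points of its derived group. -/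
def PSH : Prop := AllO fun _ _ _ _ _ D T _ π _ => ∀ J : Set (Fin D.R.r), J.Nonempty → Cn D.R J →
  (∀ σ, ∀ i ∈ J, π σ i ∈ J) → ∀ N, Nm T N → ¬Cz N J →
    ∃ a ∈ N ⊓ FJ T J, ∃ b ∈ FJ T J, ¬Commute a b

/-- The matrix `A` is `C` after a renumbering. -/
def Tm {r n : ℕ} (A : Matrix (Fin r) (Fin r) ℤ) (C : Matrix (Fin n) (Fin n) ℤ) : Prop :=
  ∃ e : Fin r ≃ Fin n, ∀ i j, A i j = C (e i) (e j)

/-- The types which occur in the induction. -/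
def Big {r : ℕ} (A : Matrix (Fin r) (Fin r) ℤ) : Prop :=
  (∃ n, 3 ≤ n ∧ Tm A (CartanMatrix.B n)) ∨ (∃ n, 3 ≤ n ∧ Tm A (CartanMatrix.C n)) ∨
  (∃ n, 4 ≤ n ∧ Tm A (CartanMatrix.D n)) ∨ Tm A CartanMatrix.E₇ ∨ Tm A CartanMatrix.E₈ ∨
  Tm A CartanMatrix.F₄

open Classical in
/-- The choice of the Levi subgroup and of the element of the torus. -/
def Cho (R : RS) : Prop := ∀ p, Dg R p → p * p = 1 → ∃ (j : Fin R.r) (y : Fin R.r → ℤ) (q : ℤ),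
  p j = j ∧ (∀ i, y (p i) = y i) ∧ (q = 0 ∨ q = 2) ∧ (∃ i, i ≠ j ∧ ¬q ∣ pw y (R.α i)) ∧
  (R.Φ.filter fun γ => ¬q ∣ pw y γ).card < R.r + (R.Φ.filter (R.In {i | i ≠ j})).card ∧
  Cn R {i | i ≠ j} ∧ ∃ (m : ℕ) (ι : Fin m ↪ Fin R.r), Set.range ι = {i | i ≠ j} ∧
    (Big (R.A.submatrix ι ι) ∨ Tm (R.A.submatrix ι ι) (CartanMatrix.B 2) ∨
      Tm (R.A.submatrix ι ι) (CartanMatrix.A 3))

/-- Type `B`. -/
def CMB : Prop := ∀ R : RS, R.Ok → ∀ n, 3 ≤ n → Tm R.A (CartanMatrix.B n) → Cho R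

/-- Type `C`. -/
def CMC : Prop := ∀ R : RS, R.Ok → ∀ n, 3 ≤ n → Tm R.A (CartanMatrix.C n) → Cho R

/-- Type `D`. -/
def CMD : Prop := ∀ R : RS, R.Ok → ∀ n, 4 ≤ n → Tm R.A (CartanMatrix.D n) → Cho R

/-- The exceptional types. -/
def CME : Prop := ∀ R : RS, R.Ok →
  (Tm R.A CartanMatrix.E₇ ∨ Tm R.A CartanMatrix.E₈ ∨ Tm R.A CartanMatrix.F₄) → Cho R

/-- The start of the gallery argument. -/
def TORY : Prop := AllP fun k _ _ _ _ D T ε π _ => ¬TyA D.R → (¬∃ e, Ty D.R CartanMatrix.E₆ e) →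
  Ort D.R π → (∃ θ, ε θ = -1) → (∀ σ τ, π σ = 1 ∨ π τ = 1 ∨ π σ = π τ) → NumberField k →
    ∀ N, Nm T N → Nc T N → ∃ i, ∃ a ∈ N ⊓ FJ T (orb π i), ∃ b ∈ FJ T (orb π i), ¬Commute a b

/-- The gallery argument without the anisotropic forms of `E₆` over number fields. -/
def DOPP2 : Prop := AllG fun k _ _ _ _ D T => ¬TyA D.R → ¬Tri T →
  (T.Ani → NumberField k → ¬∃ e, Ty D.R CartanMatrix.E₆ e) →
    ∀ ε π c, Opp T ε π c → PSimple T.fix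

end Vale.Agent.P011UGA
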