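import Vale.Agent.P011UGA.IF

/-!
The gallery argument: interfaces, second part.
-/

set_option autoImplicit false
set_option linter.all false

namespace Vale.Agent.P011UGA

open Matrix Vale.Agent.P011L Vale.Agent.P011LZ Vale.Agent.P183CH Vale.Agent.P011U

/-- The normal subgroup theorem in the form which is used by the gallery argument. -/
def TORX : Prop := AllP fun k _ _ _ _ D T ε π _ => ¬TyA D.R → Ort D.R π → (∃ θ, ε θ = -1) →
  NumberField k → T.Ani → ∀ N, Nm T N → Nc T N →
    ∃ i, ∃ a ∈ N ⊓ FJ T (orb π i), ∃ b ∈ FJ T (orb π i), ¬Commute a b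

end Vale.Agent.P011UGA
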