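import Vale.Agent.P011UGA.Spr
import Mathlib.Analysis.Complex.Basic

/-!
The groups of the states and the signs.
-/

set_option autoImplicit false
set_option linter.all false

namespace Vale.Agent.P011UGA

open Matrix Vale.Agent.P011L Vale.Agent.P011LZ Vale.Agent.P183CH Vale.Agent.P011U

/-- the sign of a real number -/
noncomputable def sgR (x : ℝ) : ℤˣ := if x < 0 then -1 else 1

theorem sgR_pos {x : ℝ} (h : 0 < x) : sgR x = 1 := if_neg h.not_gt

theorem sgR_neg {x : ℝ} (h : x < 0) : sgR x = -1 := if_pos h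

theorem sgR_eq {x : ℝ} : sgR x = -1 ↔ x < 0 :=
  ⟨fun h => by_contra fun h1 => absurd ((if_neg h1).symm.trans h) (by decide), sgR_neg⟩

theorem pos_of_sgR {x : ℝ} (h0 : x ≠ 0) (h : sgR x = 1) : 0 < x :=
  lt_of_le_of_ne (not_lt.1 fun h1 => absurd ((sgR_neg h1).symm.trans h) (by decide)) h0.symm

theorem sgR_mul {x y : ℝ} (hx : x ≠ 0) (hy : y ≠ 0) : sgR (x * y) = sgR x * sgR y := by
  rcases hx.lt_or_gt with hx | hx <;> rcases hy.lt_or_gt with hy | hy
  · rw [sgR_pos (mul_pos_of_neg_of_neg hx hy), sgR_neg hx, sgR_neg hy]; rfl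
  · rw [sgR_neg (mul_neg_of_neg_of_pos hx hy), sgR_neg hx, sgR_pos hy]; rfl
  · rw [sgR_neg (mul_neg_of_pos_of_neg hx hy), sgR_pos hx, sgR_neg hy]; rfl
  · rw [sgR_pos (mul_pos hx hy), sgR_pos hx, sgR_pos hy]; rfl

variable {k K : Type} [Field k] [Field K] [Algebra k K]

/-- the units which are real under `φ` -/
def Rl (φ : K →+* ℂ) : Subgroup Kˣ where
  carrier := {x | (φ x).im = 0}
  mul_mem' := fun {a b} (ha : (φ a).im = 0) (hb : (φ b).im = 0) => by
    simp [Complex.mul_im, ha, hb]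
  one_mem' := by simp
  inv_mem' := fun {a} (ha : (φ a).im = 0) => by simp [Complex.inv_im, ha]

theorem Rl.ne {φ : K →+* ℂ} {x : Kˣ} (h : x ∈ Rl φ) : (φ x).re ≠ 0 := fun h1 =>
  (map_ne_zero φ).2 x.ne_zero (Complex.ext h1 h)

/-- the sign of a real unit -/
noncomputable def sgH (φ : K →+* ℂ) : Rl φ →* ℤˣ :=
  MonoidHom.mk' (fun x => sgR (φ x.1).re) fun a b => by
    rw [← sgR_mul (Rl.ne a.2) (Rl.ne b.2)]
    have h : (φ a.1).im = 0 := a.2
    simp [Complex.mul_re, h]

theorem rl_of {φ : K →+* ℂ} {κ : K ≃ₐ[k] K} (h : ∀ x, φ (κ x) = starRingEnd ℂ (φ x)) {x : Kˣ}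
    (e : κ x = x) : x ∈ Rl φ := Complex.conj_eq_iff_im.1 (by rw [← h, e])

theorem re_nrm {φ : K →+* ℂ} {κ : K ≃ₐ[k] K} (h : ∀ x, φ (κ x) = starRingEnd ℂ (φ x)) (x : K) :
    φ (x * κ x) = (Complex.normSq (φ x) : ℝ) := by rw [map_mul, h, Complex.mul_conj]

/-- a product over the complement of the fixed points of an involution is positive -/
theorem prod_pos {r : ℕ} (ι : Equiv.Perm (Fin r)) (hι : ∀ m, ι (ι m) = m) (z : Fin r → ℂ)
    (h0 : ∀ m, z m ≠ 0) (hz : ∀ m, z (ι m) = starRingEnd ℂ (z m)) :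
    ∃ c : ℝ, 0 < c ∧ ∏ m ∈ Finset.univ.filter (fun m => ¬ι m = m), z m = c := by
  have h1 : ∏ m ∈ Finset.univ.filter (fun m => ¬ι m = m), z m / (‖z m‖ : ℝ) = 1 := by
    refine Finset.prod_involution (fun m _ => ι m) (fun m _ => ?_)
      (fun m hm _ => by simpa using hm) (fun m hm => ?_) fun m _ => hι m
    · rw [hz, Complex.norm_conj, div_mul_div_comm, Complex.mul_conj, Complex.normSq_eq_norm_sq,
        ← Complex.ofReal_mul, sq, div_self]
      simpa using h0 m
    · simp only [Finset.mem_filter, Finset.mem_univ, true_and] at hm ⊢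
      rw [hι]
      exact fun e => hm e.symm
  refine ⟨∏ m ∈ Finset.univ.filter (fun m => ¬ι m = m), ‖z m‖,
    Finset.prod_pos fun m _ => norm_pos_iff.2 (h0 m), ?_⟩
  rw [Finset.prod_div_distrib, div_eq_one_iff_eq
    (Finset.prod_ne_zero_iff.2 fun m _ => by simpa using h0 m)] at h1
  rw [h1, Complex.ofReal_prod]

variable {r : ℕ} (ε : (K ≃ₐ[k] K) →* ℤˣ) (π : (K ≃ₐ[k] K) →* Equiv.Perm (Fin r))

/-- the equivariant vectors -/
def EQ (P : (K ≃ₐ[k] K) → Prop) : Subgroup (Fin r → Kˣ) where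
  carrier := {t | Eqt P π t}
  mul_mem' := fun ha hb σ h i => by simp [ha σ h i, hb σ h i]
  one_mem' := fun σ h i => by simp
  inv_mem' := fun ha σ h i => by simp [ha σ h i]

/-- the orbits -/
def OS : Setoid (Fin r) :=
  ⟨fun i j => j ∈ orb π i, fun _ => ⟨1, by simp⟩, fun ⟨σ, h⟩ => ⟨σ⁻¹, by simp [← h]⟩,
    fun ⟨σ, h⟩ ⟨τ, h'⟩ => ⟨τ * σ, by simp [h, h']⟩⟩

/-- the set of the orbits -/
def OO : Type := Quotient (OS π)

/-- the orbit of a node -/
def oo (i : Fin r) : OO π := Quotient.mk _ i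

noncomputable instance : Fintype (OO π) := @Fintype.ofFinite _ (Quotient.finite _)

noncomputable instance : DecidableEq (OO π) := Classical.decEq _

variable {π}

theorem oo_eq {i j : Fin r} : oo π j = oo π i ↔ j ∈ orb π i := eq_comm.trans Quotient.eq

theorem oo_sm (σ : K ≃ₐ[k] K) (i : Fin r) : oo π (π σ i) = oo π i := oo_eq.2 ⟨σ, rfl⟩

theorem oo_surj (c : OO π) : ∃ i, oo π i = c := Quotient.exists_rep c

/-- the part which is supported on an orbit -/
noncomputable def cut (c : OO π) : (Fin r → Kˣ) →* Fin r → Kˣ :=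
  MonoidHom.mk' (fun t m => if oo π m = c then t m else 1) fun a b => funext fun m => by
    by_cases h : oo π m = c <;> simp [h]

theorem cut_ap (c : OO π) (t : Fin r → Kˣ) (m : Fin r) :
    cut c t m = if oo π m = c then t m else 1 := rfl

theorem cut_eq {P : (K ≃ₐ[k] K) → Prop} (c : OO π) {t : Fin r → Kˣ} (h : t ∈ EQ π P) :
    cut c t ∈ EQ π P := fun σ hσ i => by
  rw [cut_ap, cut_ap, oo_sm]
  split_ifs
  · exact h σ hσ i
  · simp

theorem prod_cut (t : Fin r → Kˣ) : ∏ c : OO π, cut c t = t := funext fun m => by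
  simp [Finset.prod_apply, cut_ap]

/-- the equivariant vectors with the support in an orbit -/
def TT (c : OO π) : Subgroup (Fin r → Kˣ) :=
  EQ π (fun _ => True) ⊓
    { carrier := {t | ∀ m, oo π m ≠ c → t m = 1}
      mul_mem' := fun ha hb m h => by simp [ha m h, hb m h]
      one_mem' := fun _ _ => rfl
      inv_mem' := fun ha m h => by simp [ha m h] }

variable (π)

/-- the norms -/
def NN : Subgroup (Fin r → Kˣ) where
  carrier := {t | ∃ s ∈ EQ π (fun σ => ε σ = 1), ∀ θ, ε θ = -1 → ∀ m,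
    (t (π θ m) : K) = s (π θ m) * θ (s m)}
  mul_mem' := fun ⟨s, hs, h⟩ ⟨s', hs', h'⟩ => ⟨s * s', mul_mem hs hs', fun θ e m => by
    simp only [Pi.mul_apply, Units.val_mul, h θ e m, h' θ e m, map_mul]
    ring⟩
  one_mem' := ⟨1, one_mem _, fun θ e m => by simp⟩
  inv_mem' := fun ⟨s, hs, h⟩ => ⟨s⁻¹, inv_mem hs, fun θ e m => by
    simp only [Pi.inv_apply, Units.val_inv_eq_inv_val, h θ e m, map_inv₀, mul_inv]⟩

variable {π}

theorem cut_nn (c : OO π) {t : Fin r → Kˣ} {s : Fin r → Kˣ} (hs : s ∈ EQ π (fun σ => ε σ = 1))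
    (h : ∀ θ, ε θ = -1 → ∀ m, oo π m = c → (t (π θ m) : K) = s (π θ m) * θ (s m)) :
    cut c t ∈ NN ε π := ⟨cut c s, cut_eq c hs, fun θ e m => by
  rw [cut_ap, cut_ap, cut_ap, oo_sm]
  split_ifs with h1
  · exact h θ e m h1
  · simp⟩

/-- the states of an orbit -/
def AA (c : OO π) : Type := TT c ⧸ (NN ε π).subgroupOf (TT c)

noncomputable instance (c : OO π) : CommGroup (AA ε c) := QuotientGroup.Quotient.commGroup _

/-- the class of a vector -/
noncomputable def mA (c : OO π) : TT c →* AA ε c := QuotientGroup.mk' _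

theorem mA_surj (c : OO π) : Function.Surjective (mA ε c) := QuotientGroup.mk'_surjective _

theorem mA_one {c : OO π} {t : TT c} : mA ε c t = 1 ↔ t.1 ∈ NN ε π := QuotientGroup.eq_one_iff t

/-- the projection to an orbit -/
noncomputable def cuT (c : OO π) : EQ π (fun _ => True) →* TT c :=
  ((cut c).comp (Subgroup.subtype _)).codRestrict _ fun t => ⟨cut_eq c t.2, fun _ h => if_neg h⟩

variable (π)

/-- the state of a vector -/
noncomputable def PP : EQ π (fun _ => True) →* ∀ c : OO π, AA ε c :=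
  Pi.monoidHom fun c => (mA ε c).comp (cuT c)

variable {π}

theorem PP_one {t : EQ π (fun _ => True)} : PP ε π t = 1 ↔ t.1 ∈ NN ε π := by
  constructor
  · intro h
    rw [← prod_cut (π := π) t.1]
    exact prod_mem fun c _ => (mA_one ε).1 (congrFun h c)
  · rintro ⟨s, hs, h⟩
    exact funext fun c => (mA_one ε).2 (cut_nn ε c hs fun θ e m _ => h θ e m)

theorem PP_single {c : OO π} {t : EQ π (fun _ => True)}
    (h : ∀ c', c' ≠ c → cut c' t.1 ∈ NN ε π) : PP ε π t = Pi.mulSingle c (mA ε c (cuT c t)) :=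
  funext fun c' => by
    rcases eq_or_ne c' c with rfl | h1
    · rw [Pi.mulSingle_eq_same]
      rfl
    · rw [Pi.mulSingle_eq_of_ne h1]
      exact (mA_one ε).2 (h c' h1)

theorem PP_TT {c : OO π} (t : TT c) : PP ε π ⟨t.1, t.2.1⟩ = Pi.mulSingle c (mA ε c t) := by
  rw [PP_single ε (c := c)]
  · congr 2
    refine Subtype.ext (funext fun m => ?_)
    show (if oo π m = c then t.1 m else 1) = t.1 m
    split_ifs with h
    · rfl
    · exact (t.2.2 m h).symm
  · intro c' h
    have : cut c' t.1 = 1 := funext fun m => by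
      rw [cut_ap]
      split_ifs with h1
      · exact t.2.2 m (h1 ▸ h)
      · rfl
    exact this ▸ one_mem _

variable {ε} {V : Type} {φ : V → K →+* ℂ} {κ : V → K ≃ₐ[k] K} (H : Plc ε V φ κ)

include H in
theorem Plc.rl {v : V} {j : Fin r} (h : π (κ v) j = j) {t : Fin r → Kˣ}
    (ht : t ∈ EQ π (fun _ => True)) : t j ∈ Rl (φ v) :=
  rl_of (H.cj v) (by rw [← ht _ trivial j, h])

/-- the sign at a place and a node -/
noncomputable def sgA (v : V) (j : Fin r) (h : π (κ v) j = j) : AA ε (oo π j) →* ℤˣ :=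
  QuotientGroup.lift _ ((sgH (φ v)).comp
    (((Pi.evalMonoidHom _ j).comp (Subgroup.subtype _)).codRestrict _ fun t => H.rl h t.2.1)) (by
      rintro t ⟨s, -, hs⟩
      have := hs _ (H.neg v) j
      rw [h] at this
      refine sgR_pos (?_ : 0 < (φ v (t.1 j : K)).re)
      erw [this]
      rw [re_nrm (H.cj v), Complex.ofReal_re]
      exact Complex.normSq_pos.2 ((map_ne_zero _).2 (s j).ne_zero))

variable (π)

/-- the sign at a place and a node -/
noncomputable def sgP (v : V) (j : Fin r) : (∀ c : OO π, AA ε c) →* ℤˣ :=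
  if h : π (κ v) j = j then (sgA H v j h).comp (Pi.evalMonoidHom _ (oo π j)) else 1

variable {π}

theorem sgP_loc (v : V) (j : Fin r) (c : OO π) (a : AA ε c) (h : c ≠ oo π j) :
    sgP π H v j (Pi.mulSingle c a) = 1 := by
  unfold sgP
  split_ifs
  · simp [Pi.mulSingle_eq_of_ne h.symm]
  · rfl

theorem sgP_PP {v : V} {j : Fin r} (h : π (κ v) j = j) (t : EQ π (fun _ => True)) :
    sgP π H v j (PP ε π t) = sgR (φ v (t.1 j)).re := by
  rw [sgP, dif_pos h]
  show sgR (φ v (cut (oo π j) t.1 j)).re = _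
  rw [cut_ap, if_pos rfl]

end Vale.Agent.P011UGA
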